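import Vale.Agent.Lib.P362.Law.Had

/-! P362 Law/Arr: sums over paths as sums over sets. -/

namespace P362.Law

variable {m l : ℕ}

theorem tv_card (i : Fin (m + 1) → I l) : (tv i).card = m + 1 := by
  unfold tv
  rw [Finset.card_image_of_injective _ (fun a b h => (Prod.mk.inj h).1), Finset.card_univ,
    Fintype.card_fin]

theorem tv_injective : Function.Injective (tv (m := m) (l := l)) := by
  intro i i' h
  funext j
  have h1 : (j, i j) ∈ tv i' := by
    rw [← h]
    exact Finset.mem_image_of_mem _ (Finset.mem_univ j)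
  obtain ⟨j', -, hj'⟩ := Finset.mem_image.1 h1
  obtain ⟨h2, h3⟩ := Prod.mk.inj hj'
  rw [← h3, h2]

private lemma had_abs (a b : I l) : |(had a b : ℝ)| = 1 := by
  unfold had
  rw [Int.cast_prod, Finset.abs_prod]
  refine Finset.prod_eq_one fun c _ => ?_
  by_cases h : (a c && b c) = true
  · rw [if_pos h]; norm_num
  · rw [if_neg h]; norm_num

theorem path_as_array : ∃ a : Finset (VV m l) → ℝ, (∀ S, |a S| ≤ 1) ∧
    (∀ S, S.card ≠ m + 1 → a S = 0) ∧
    ∀ F : Finset (VV m l) → ℝ,
      ∑ i : Fin (m + 1) → I l, (∏ j : Fin m, (had (i j.castSucc) (i j.succ) : ℝ)) * F (tv i) =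
        ∑ S, a S * F S := by
  classical
  refine ⟨fun S => ∑ i : Fin (m + 1) → I l,
    if tv i = S then (∏ j : Fin m, (had (i j.castSucc) (i j.succ) : ℝ)) else 0, ?_, ?_, ?_⟩
  · intro S
    by_cases hS : ∃ i : Fin (m + 1) → I l, tv i = S
    · obtain ⟨i, rfl⟩ := hS
      dsimp only
      rw [Finset.sum_eq_single i]
      · rw [if_pos rfl, Finset.abs_prod, Finset.prod_eq_one (fun j _ => had_abs _ _)]
      · intro i' _ hi'
        rw [if_neg (fun h => hi' (tv_injective h))]
      · intro h
        exact absurd (Finset.mem_univ _) h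
    · push Not at hS
      dsimp only
      rw [Finset.sum_eq_zero (fun i _ => if_neg (hS i))]
      simp
  · intro S hS
    refine Finset.sum_eq_zero fun i _ => if_neg ?_
    intro h
    exact hS (by rw [← h, tv_card])
  · intro F
    simp only [Finset.sum_mul]
    rw [Finset.sum_comm]
    refine Finset.sum_congr rfl fun i _ => ?_
    rw [Finset.sum_eq_single (tv i)]
    · rw [if_pos rfl]
    · intro S _ hS
      rw [if_neg (Ne.symm hS), zero_mul]
    · intro h
      exact absurd (Finset.mem_univ _) h

end P362.Law
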