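import Vale.Agent.Lib.P362.Law.C1b

/-!
# P362 Law C1: level-k bound for decision trees
-/

namespace P362

namespace Law

open Finset

variable {V : Type} [Fintype V] [DecidableEq V]

/-- the potential -/
noncomputable def Psi (M : ℕ) (w : ℝ) (a : Finset V → ℝ) : ℝ := ∑ S, w ^ S.card * a S ^ (2 * M)

theorem Psi_nonneg (M : ℕ) {w : ℝ} (hw : 0 ≤ w) (a : Finset V → ℝ) : 0 ≤ Psi M w a := by
  unfold Psi
  refine sum_nonneg fun S _ => ?_
  have : 0 ≤ a S ^ (2 * M) := by rw [pow_mul]; positivity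
  positivity

theorem sum_P (t : ℝ) : ∑ b : Bool, (1 + sg b * t) / 2 = 1 := by
  rw [Fintype.sum_bool]
  simp only [sg]
  norm_num
  ring

theorem P_nonneg {t : ℝ} (ht : |t| ≤ 1) (b : Bool) : 0 ≤ (1 + sg b * t) / 2 := by
  have h := abs_le.1 ht
  cases b <;> simp only [sg] <;> norm_num <;> linarith

/-- the expected potential after one query -/
theorem Psi_step (M : ℕ) (hM : 1 ≤ M) {d : ℝ} (hd : 1 ≤ d) (a : Finset V → ℝ) (p : V) (t : ℝ)
    (ht : |t| ≤ 1) (φ : Bool → ℝ) (hmean : ∑ b : Bool, (1 + sg b * t) / 2 * φ b = 0)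
    (hφ : ∀ b, |φ b| ≤ 2) :
    ∑ b : Bool, (1 + sg b * t) / 2 * Psi M (cM M ^ M * d ^ M) (na a p (φ b)) ≤
      (1 + 1 / d) * Psi M (cM M ^ M * d ^ M) a := by
  have hd0 : 0 < d := by linarith
  have hc0 : 0 ≤ cM M := le_trans zero_le_one (cM_one_le hM)
  set w := cM M ^ M * d ^ M with hw
  have hw0 : 0 ≤ w := by positivity
  unfold Psi
  simp_rw [mul_sum]
  rw [sum_comm, sum_finset_split p, sum_finset_split p]
  refine sum_le_sum fun S hS => ?_
  have hp : p ∉ S := fun h => (notMem_erase p univ) ((mem_powerset.1 hS) h)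
  have hpS : p ∈ insert p S := mem_insert_self p S
  have h4 : ∀ b, na a p (φ b) (insert p S) = 0 := fun b => if_pos hpS
  have h3 : ∀ b, na a p (φ b) S = a S + φ b * a (insert p S) := fun b => if_neg hp
  have hM2 : 2 * M ≠ 0 := by omega
  simp_rw [h4, h3, zero_pow hM2, mul_zero, sum_const_zero, add_zero]
  rw [card_insert_of_notMem hp]
  have hpt : ∀ b : Bool, (1 + sg b * t) / 2 * (a S + φ b * a (insert p S)) ^ (2 * M) ≤
      (1 + sg b * t) / 2 * ((1 + 1 / d) * a S ^ (2 * M) +
        (2 * M : ℕ) * a S ^ (2 * M - 1) * (φ b * a (insert p S)) +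
        cM M ^ M * d ^ (M - 1) * a (insert p S) ^ (2 * M)) := by
    intro b
    refine mul_le_mul_of_nonneg_left ?_ (P_nonneg ht b)
    apply scalar_pt hM hd
    rw [abs_mul]
    exact mul_le_mul_of_nonneg_right (hφ b) (abs_nonneg _)
  have hsum : ∑ b : Bool, (1 + sg b * t) / 2 * (a S + φ b * a (insert p S)) ^ (2 * M) ≤
      (1 + 1 / d) * a S ^ (2 * M) + cM M ^ M * d ^ (M - 1) * a (insert p S) ^ (2 * M) := by
    refine (sum_le_sum fun b _ => hpt b).trans (le_of_eq ?_)
    have e1 : ∀ b : Bool, (1 + sg b * t) / 2 * ((1 + 1 / d) * a S ^ (2 * M) +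
        (2 * M : ℕ) * a S ^ (2 * M - 1) * (φ b * a (insert p S)) +
        cM M ^ M * d ^ (M - 1) * a (insert p S) ^ (2 * M)) =
        (1 + sg b * t) / 2 * ((1 + 1 / d) * a S ^ (2 * M) +
          cM M ^ M * d ^ (M - 1) * a (insert p S) ^ (2 * M)) +
        ((1 + sg b * t) / 2 * φ b) * ((2 * M : ℕ) * a S ^ (2 * M - 1) * a (insert p S)) := by
      intro b
      ring
    simp_rw [e1]
    rw [sum_add_distrib, ← sum_mul, ← sum_mul, sum_P, hmean]
    ring
  have hexp : ∑ b : Bool, (1 + sg b * t) / 2 * (w ^ S.card *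
      (a S + φ b * a (insert p S)) ^ (2 * M)) =
      w ^ S.card * ∑ b : Bool, (1 + sg b * t) / 2 * (a S + φ b * a (insert p S)) ^ (2 * M) := by
    rw [mul_sum]
    refine sum_congr rfl fun b _ => ?_
    ring
  rw [hexp]
  have hwS : 0 ≤ w ^ S.card := by positivity
  refine (mul_le_mul_of_nonneg_left hsum hwS).trans ?_
  have hv0 : 0 ≤ a (insert p S) ^ (2 * M) := by rw [pow_mul]; positivity
  have hdM : cM M ^ M * d ^ (M - 1) = 1 / d * w := by
    rw [hw]
    have : d ^ M = d ^ (M - 1) * d := by rw [← pow_succ, Nat.sub_add_cancel hM]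
    rw [this]
    field_simp
  rw [hdM]
  have h1d : 1 / d ≤ 1 + 1 / d := by linarith
  calc w ^ S.card * ((1 + 1 / d) * a S ^ (2 * M) + 1 / d * w * a (insert p S) ^ (2 * M))
      = (1 + 1 / d) * (w ^ S.card * a S ^ (2 * M)) +
          1 / d * (w ^ (S.card + 1) * a (insert p S) ^ (2 * M)) := by ring
    _ ≤ (1 + 1 / d) * (w ^ S.card * a S ^ (2 * M)) +
          (1 + 1 / d) * (w ^ (S.card + 1) * a (insert p S) ^ (2 * M)) := by
        gcongr

theorem Psi_step' (M : ℕ) (hM : 1 ≤ M) {d : ℝ} (hd : 1 ≤ d) (a : Finset V → ℝ) (p : V) (t : ℝ)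
    (_ht : |t| ≤ 1) (h0 : ∀ S, p ∈ S → a S = 0) :
    ∑ b : Bool, (1 + sg b * t) / 2 * Psi M (cM M ^ M * d ^ M) (na a p 0) ≤
      (1 + 1 / d) * Psi M (cM M ^ M * d ^ M) a := by
  have hd0 : 0 < d := by linarith
  have hc0 : 0 ≤ cM M := le_trans zero_le_one (cM_one_le hM)
  have hna : na a p 0 = a := by
    funext S
    unfold na
    by_cases hp : p ∈ S
    · rw [if_pos hp, h0 S hp]
    · rw [if_neg hp]; ring
  rw [← sum_mul, sum_P, hna, one_mul]
  have h1 : 0 ≤ Psi M (cM M ^ M * d ^ M) a := Psi_nonneg M (by positivity) a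
  have h2 : 0 ≤ 1 / d := by positivity
  nlinarith

/-- the main induction -/
theorem levelk_ind (M : ℕ) (hM : 1 ≤ M) {d : ℝ} (hd : 1 ≤ d) (T : DT V Bool) :
    ∀ (a : Finset V → ℝ) (z : V → ℝ), (∀ v, |z v| ≤ 1) →
      (∀ S, ∀ v ∈ S, 1 / 2 < |z v| → a S = 0) →
      QQa (ind T) a z ^ (2 * M) ≤ (1 + 1 / d) ^ T.depth * Psi M (cM M ^ M * d ^ M) a := by
  have hd0 : 0 < d := by linarith
  have hc0 : 0 ≤ cM M := le_trans zero_le_one (cM_one_le hM)
  have hw0 : 0 ≤ cM M ^ M * d ^ M := by positivity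
  have h1d : 1 ≤ 1 + 1 / d := by
    have : 0 ≤ 1 / d := by positivity
    linarith
  induction T with
  | leaf r =>
    intro a z _ _
    have h1 : ind (DT.leaf r : DT V Bool) = fun _ => if r = true then (1 : ℝ) else 0 := rfl
    rw [h1]
    unfold QQa
    simp_rw [DD_const]
    simp only [DT.depth, pow_zero, one_mul]
    have h2 : ∑ S : Finset V, a S * (if S = ∅ then (if r = true then (1 : ℝ) else 0) else 0) =
        a ∅ * (if r = true then (1 : ℝ) else 0) := by
      rw [sum_eq_single ∅]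
      · simp
      · intro S _ hS
        rw [if_neg hS, mul_zero]
      · intro h
        exact absurd (mem_univ _) h
    rw [h2]
    have h3 : (a ∅ * (if r = true then (1 : ℝ) else 0)) ^ (2 * M) ≤ a ∅ ^ (2 * M) := by
      by_cases hr : r = true
      · rw [if_pos hr, mul_one]
      · rw [if_neg hr, mul_zero, zero_pow (by omega), pow_mul]
        positivity
    refine h3.trans ?_
    unfold Psi
    have h4 := single_le_sum (f := fun S : Finset V => (cM M ^ M * d ^ M) ^ S.card * a S ^ (2 * M))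
      (s := univ) (fun S _ => by
        have : 0 ≤ a S ^ (2 * M) := by rw [pow_mul]; positivity
        positivity) (mem_univ ∅)
    simpa using h4
  | node p t0 t1 ih0 ih1 =>
    intro a z hz ha
    have hP := P_nonneg (hz p)
    have key : ∃ φ : Bool → ℝ,
        (∀ b, ∀ S, p ∉ S → (1 + sg b * z p) / 2 * (φ b * a (insert p S)) =
          sg b / 2 * a (insert p S)) ∧
        ∑ b : Bool, (1 + sg b * z p) / 2 * Psi M (cM M ^ M * d ^ M) (na a p (φ b)) ≤
          (1 + 1 / d) * Psi M (cM M ^ M * d ^ M) a := by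
      rcases le_or_gt |z p| (1 / 2) with hzp | hzp
      · have hpos : ∀ b, 1 / 2 ≤ 1 + sg b * z p := by
          intro b
          have h := abs_le.1 hzp
          cases b <;> simp only [sg] <;> norm_num <;> linarith
        refine ⟨fun b => sg b / (1 + sg b * z p), ?_, ?_⟩
        · intro b S _
          have := hpos b
          have h1 : (1 + sg b * z p) ≠ 0 := by linarith
          field_simp
        · refine Psi_step M hM hd a p (z p) (hz p) _ ?_ ?_
          · have h1 : ∀ b, (1 + sg b * z p) / 2 * (sg b / (1 + sg b * z p)) = sg b / 2 := by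
              intro b
              have := hpos b
              have h1 : (1 + sg b * z p) ≠ 0 := by linarith
              field_simp
            simp_rw [h1]
            rw [Fintype.sum_bool]
            simp only [sg]
            norm_num
          · intro b
            have := hpos b
            rw [abs_div, abs_sg, abs_of_pos (by linarith : 0 < 1 + sg b * z p),
              div_le_iff₀ (by linarith)]
            linarith
      · have h0 : ∀ S, p ∈ S → a S = 0 := fun S hS => ha S p hS hzp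
        refine ⟨fun _ => 0, ?_, Psi_step' M hM hd a p (z p) (hz p) h0⟩
        intro b S _
        rw [h0 _ (mem_insert_self p S)]
        ring
    obtain ⟨φ, hφ1, hφ2⟩ := key
    rw [QQa_node p t0 t1 a z φ hφ1]
    have hE : Even (2 * M) := even_two_mul M
    have hJ := Real.pow_arith_mean_le_arith_mean_pow_of_even (s := univ)
      (fun b : Bool => (1 + sg b * z p) / 2)
      (fun b : Bool => QQa (ind (if b then t1 else t0)) (na a p (φ b))
        (Function.update z p (sg b))) (fun b _ => hP b) (sum_P (z p)) hE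
    refine hJ.trans ?_
    have hb : ∀ b : Bool, QQa (ind (if b then t1 else t0)) (na a p (φ b))
        (Function.update z p (sg b)) ^ (2 * M) ≤
        (1 + 1 / d) ^ (max t0.depth t1.depth) * Psi M (cM M ^ M * d ^ M) (na a p (φ b)) := by
      intro b
      have hz' : ∀ v, |Function.update z p (sg b) v| ≤ 1 := by
        intro v
        by_cases hv : v = p
        · subst hv
          rw [Function.update_self, abs_sg]
        · rw [Function.update_of_ne hv]
          exact hz v
      have ha' : ∀ S, ∀ v ∈ S, 1 / 2 < |Function.update z p (sg b) v| → na a p (φ b) S = 0 := by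
        intro S v hv hlt
        unfold na
        by_cases hp : p ∈ S
        · rw [if_pos hp]
        · rw [if_neg hp]
          have hvp : v ≠ p := fun h => hp (h ▸ hv)
          rw [Function.update_of_ne hvp] at hlt
          rw [ha S v hv hlt, ha (insert p S) v (mem_insert_of_mem hv) hlt]
          ring
      have hPs : 0 ≤ Psi M (cM M ^ M * d ^ M) (na a p (φ b)) := Psi_nonneg M hw0 _
      cases b
      · refine (ih0 _ _ hz' ha').trans ?_
        exact mul_le_mul_of_nonneg_right (pow_le_pow_right₀ h1d (le_max_left _ _)) hPs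
      · refine (ih1 _ _ hz' ha').trans ?_
        exact mul_le_mul_of_nonneg_right (pow_le_pow_right₀ h1d (le_max_right _ _)) hPs
    refine (sum_le_sum fun b _ => mul_le_mul_of_nonneg_left (hb b) (hP b)).trans ?_
    have e1 : ∑ b : Bool, (1 + sg b * z p) / 2 * ((1 + 1 / d) ^ (max t0.depth t1.depth) *
        Psi M (cM M ^ M * d ^ M) (na a p (φ b))) =
        (1 + 1 / d) ^ (max t0.depth t1.depth) * ∑ b : Bool, (1 + sg b * z p) / 2 *
          Psi M (cM M ^ M * d ^ M) (na a p (φ b)) := by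
      rw [mul_sum]
      refine sum_congr rfl fun b _ => ?_
      ring
    rw [e1]
    have e2 : (DT.node p t0 t1).depth = max t0.depth t1.depth + 1 := rfl
    rw [e2, pow_succ, mul_assoc]
    exact mul_le_mul_of_nonneg_left hφ2 (by positivity)

/-- level-`k` bound, power form -/
theorem levelk_pow (k M : ℕ) (hM : 1 ≤ M) (d : ℕ) (hd : 1 ≤ d) (T : DT V Bool) (hT : T.depth ≤ d)
    (a : Finset V → ℝ) (ha : ∀ S, |a S| ≤ 1) (hk : ∀ S, S.card ≠ k → a S = 0)
    (z : V → ℝ) (hz : ∀ v, |z v| ≤ 1 / 2) :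
    (∑ S, a S * DD (ind T) S z) ^ (2 * M) ≤
      Real.exp 1 * (cM M ^ M) ^ k * ((d : ℝ) ^ M) ^ k * (Fintype.card V : ℝ) ^ k := by
  have hd' : (1 : ℝ) ≤ d := by exact_mod_cast hd
  have hd0 : (0 : ℝ) < d := by linarith
  have hc0 : 0 ≤ cM M := le_trans zero_le_one (cM_one_le hM)
  have hw0 : 0 ≤ cM M ^ M * (d : ℝ) ^ M := by positivity
  have h1 := levelk_ind M hM hd' T a z (fun v => (hz v).trans (by norm_num))
    (fun S v _ h => absurd (hz v) (not_le.2 h))
  refine h1.trans ?_
  have h2 : (1 + 1 / (d : ℝ)) ^ T.depth ≤ Real.exp 1 := by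
    have h3 : (1 + 1 / (d : ℝ)) ^ T.depth ≤ (1 + 1 / (d : ℝ)) ^ d := by
      apply pow_le_pow_right₀ _ hT
      have : 0 ≤ 1 / (d : ℝ) := by positivity
      linarith
    refine h3.trans ?_
    have h4 : 1 + 1 / (d : ℝ) ≤ Real.exp (1 / d) := by
      have := Real.add_one_le_exp (1 / (d : ℝ))
      linarith
    calc (1 + 1 / (d : ℝ)) ^ d ≤ Real.exp (1 / d) ^ d := by gcongr
      _ = Real.exp 1 := by
        rw [← Real.exp_nat_mul]
        congr 1
        field_simp
  have h3 : Psi M (cM M ^ M * (d : ℝ) ^ M) a ≤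
      (cM M ^ M * (d : ℝ) ^ M) ^ k * (Fintype.card V : ℝ) ^ k := by
    unfold Psi
    have h4 : ∀ S : Finset V, (cM M ^ M * (d : ℝ) ^ M) ^ S.card * a S ^ (2 * M) ≤
        if S ∈ powersetCard k univ then (cM M ^ M * (d : ℝ) ^ M) ^ k else 0 := by
      intro S
      by_cases hS : S.card = k
      · rw [if_pos (mem_powersetCard.2 ⟨subset_univ S, hS⟩), hS]
        have : a S ^ (2 * M) ≤ 1 := by
          rw [pow_mul, ← sq_abs]
          exact pow_le_one₀ (by positivity) (pow_le_one₀ (abs_nonneg _) (ha S))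
        calc _ ≤ (cM M ^ M * (d : ℝ) ^ M) ^ k * 1 := by gcongr
          _ = _ := mul_one _
      · rw [hk S hS, zero_pow (by omega), mul_zero]
        split_ifs
        · positivity
        · exact le_rfl
    refine (sum_le_sum fun S _ => h4 S).trans ?_
    rw [sum_ite_mem, univ_inter, sum_const, card_powersetCard, card_univ, nsmul_eq_mul, mul_comm]
    have h5 : ((Fintype.card V).choose k : ℝ) ≤ (Fintype.card V : ℝ) ^ k := by
      exact_mod_cast Nat.choose_le_pow _ _
    gcongr
  calc (1 + 1 / (d : ℝ)) ^ T.depth * Psi M (cM M ^ M * (d : ℝ) ^ M) a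
      ≤ Real.exp 1 * ((cM M ^ M * (d : ℝ) ^ M) ^ k * (Fintype.card V : ℝ) ^ k) := by
        refine mul_le_mul h2 h3 (Psi_nonneg M hw0 a) (by positivity)
    _ = _ := by rw [mul_pow]; ring

/-- level-`k` bound -/
theorem levelk (k M : ℕ) (hM : 1 ≤ M) :
    ∃ C : ℝ, 0 < C ∧ ∀ (V : Type) [Fintype V] [DecidableEq V] (d : ℕ), 1 ≤ d →
      ∀ (T : DT V Bool), T.depth ≤ d → ∀ (a : Finset V → ℝ), (∀ S, |a S| ≤ 1) →
      (∀ S, S.card ≠ k → a S = 0) → ∀ (z : V → ℝ), (∀ v, |z v| ≤ 1 / 2) →
      |∑ S, a S * DD (ind T) S z| ≤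
        C * (d : ℝ) ^ ((k : ℝ) / 2) * (Fintype.card V : ℝ) ^ ((k : ℝ) / (2 * M)) := by
  have hM0 : (0 : ℝ) < M := by exact_mod_cast (by omega : 0 < M)
  have hc0 : 0 < cM M := lt_of_lt_of_le zero_lt_one (cM_one_le hM)
  refine ⟨(Real.exp 1 * (cM M ^ M) ^ k) ^ (1 / (2 * (M : ℝ))), by positivity, ?_⟩
  intro V _ _ d hd T hT a ha hk z hz
  have h1 := levelk_pow k M hM d hd T hT a ha hk z hz
  set Q := ∑ S, a S * DD (ind T) S z
  have hd0 : (0 : ℝ) ≤ d := Nat.cast_nonneg d
  have hV0 : (0 : ℝ) ≤ Fintype.card V := Nat.cast_nonneg _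
  have h2 : |Q| = (|Q| ^ (2 * M)) ^ (1 / (2 * (M : ℝ))) := by
    rw [← Real.rpow_natCast, ← Real.rpow_mul (abs_nonneg Q)]
    have : ((2 * M : ℕ) : ℝ) * (1 / (2 * (M : ℝ))) = 1 := by
      push_cast
      field_simp
    rw [this, Real.rpow_one]
  have h3 : |Q| ^ (2 * M) = Q ^ (2 * M) := by
    rw [pow_mul, pow_mul, sq_abs]
  rw [h2, h3]
  have h4 : (0 : ℝ) ≤ Q ^ (2 * M) := by rw [pow_mul]; positivity
  refine (Real.rpow_le_rpow h4 h1 (by positivity)).trans (le_of_eq ?_)
  rw [Real.mul_rpow (by positivity) (by positivity), Real.mul_rpow (by positivity) (by positivity)]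
  have h5 : (((d : ℝ) ^ M) ^ k) ^ (1 / (2 * (M : ℝ))) = (d : ℝ) ^ ((k : ℝ) / 2) := by
    rw [← pow_mul, ← Real.rpow_natCast, ← Real.rpow_mul hd0]
    congr 1
    push_cast
    field_simp
  have h6 : ((Fintype.card V : ℝ) ^ k) ^ (1 / (2 * (M : ℝ))) =
      (Fintype.card V : ℝ) ^ ((k : ℝ) / (2 * M)) := by
    rw [← Real.rpow_natCast, ← Real.rpow_mul hV0]
    congr 1
    ring
  rw [h5, h6]

end Law

end P362
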