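import Vale.Agent.Lib.P362.Law.Defs

/-!
# P362 Law C1a: the scalar inequality
-/

namespace P362

namespace Law

/-- second order Taylor remainder of a power -/
theorem taylor_pow (u w : ℝ) (n : ℕ) :
    |(u + w) ^ (n + 2) - u ^ (n + 2) - (n + 2 : ℕ) * u ^ (n + 1) * w| ≤
      ((n : ℝ) + 2) ^ 2 * w ^ 2 * (|u| + |w|) ^ n := by
  induction n with
  | zero =>
    have h1 : (u + w) ^ 2 - u ^ 2 - ((0 + 2 : ℕ) : ℝ) * u ^ 1 * w = w ^ 2 := by push_cast; ring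
    rw [h1, abs_of_nonneg (sq_nonneg w)]
    have := sq_nonneg w
    simp only [Nat.cast_zero, pow_zero, mul_one]
    nlinarith
  | succ n ih =>
    have h1 : (u + w) ^ (n + 1 + 2) - u ^ (n + 1 + 2) - ((n + 1 + 2 : ℕ) : ℝ) * u ^ (n + 1 + 1) * w =
        (u + w) * ((u + w) ^ (n + 2) - u ^ (n + 2) - ((n + 2 : ℕ) : ℝ) * u ^ (n + 1) * w) +
          ((n : ℝ) + 2) * u ^ (n + 1) * w ^ 2 := by
      push_cast
      ring
    rw [h1]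
    have hA : 0 ≤ |u| + |w| := by positivity
    have hu : |u| ≤ |u| + |w| := by linarith [abs_nonneg w]
    have h2 : |(u + w) * ((u + w) ^ (n + 2) - u ^ (n + 2) - ((n + 2 : ℕ) : ℝ) * u ^ (n + 1) * w)| ≤
        (|u| + |w|) * (((n : ℝ) + 2) ^ 2 * w ^ 2 * (|u| + |w|) ^ n) := by
      rw [abs_mul]
      exact mul_le_mul (abs_add_le u w) ih (abs_nonneg _) hA
    have h3 : |((n : ℝ) + 2) * u ^ (n + 1) * w ^ 2| ≤
        ((n : ℝ) + 2) * (|u| + |w|) ^ (n + 1) * w ^ 2 := by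
      rw [abs_mul, abs_mul, abs_of_nonneg (sq_nonneg w), abs_pow,
        abs_of_nonneg (by positivity : (0 : ℝ) ≤ (n : ℝ) + 2)]
      gcongr
    refine (abs_add_le _ _).trans ((add_le_add h2 h3).trans ?_)
    have h4 : (|u| + |w|) * (((n : ℝ) + 2) ^ 2 * w ^ 2 * (|u| + |w|) ^ n) +
        ((n : ℝ) + 2) * (|u| + |w|) ^ (n + 1) * w ^ 2 =
        ((((n : ℝ) + 2) ^ 2 + ((n : ℝ) + 2)) * w ^ 2) * (|u| + |w|) ^ (n + 1) := by ring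
    rw [h4]
    push_cast
    have h5 : ((n : ℝ) + 2) ^ 2 + ((n : ℝ) + 2) ≤ ((n : ℝ) + 1 + 2) ^ 2 := by nlinarith
    gcongr

/-- the constant `4 M^2 4^M` -/
noncomputable def cM (M : ℕ) : ℝ := 4 * (M : ℝ) ^ 2 * 4 ^ M

theorem cM_one_le {M : ℕ} (hM : 1 ≤ M) : 1 ≤ cM M := by
  unfold cM
  have h1 : (1 : ℝ) ≤ M := by exact_mod_cast hM
  have h2 : (1 : ℝ) ≤ 4 ^ M := one_le_pow₀ (by norm_num)
  nlinarith [mul_le_mul h1 h1 (by norm_num) (by positivity)]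

theorem pow_split (u : ℝ) (m : ℕ) : u ^ (2 * m + 2) = |u| ^ (2 * m) * u ^ 2 := by
  rw [pow_add, pow_mul, pow_mul, sq_abs]

theorem large_case (m : ℕ) {c d : ℝ} (hc : c = 16 * ((m : ℝ) + 1) ^ 2 * 4 ^ m) (hc0 : 0 < c)
    (hd0 : 0 < d) (hcd4 : 4 ≤ c * d) (u v : ℝ) (hcase : (c * d) * v ^ 2 ≤ u ^ 2) :
    16 * ((m : ℝ) + 1) ^ 2 * v ^ 2 * (|u| + 2 * |v|) ^ (2 * m) ≤ 1 / d * u ^ (2 * m + 2) := by
  have h1 : 2 * |v| ≤ |u| := by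
    apply abs_le_of_sq_le_sq' _ (abs_nonneg u) |>.2
    rw [mul_pow, sq_abs, sq_abs]
    nlinarith [sq_nonneg v]
  have h2 : (|u| + 2 * |v|) ^ (2 * m) ≤ (2 * |u|) ^ (2 * m) := by
    gcongr
    linarith
  have h3 : v ^ 2 ≤ u ^ 2 / (c * d) := by
    rw [le_div_iff₀ (by positivity)]
    linarith
  have h4 : 16 * ((m : ℝ) + 1) ^ 2 * v ^ 2 * (|u| + 2 * |v|) ^ (2 * m) ≤
      16 * ((m : ℝ) + 1) ^ 2 * (u ^ 2 / (c * d)) * (2 * |u|) ^ (2 * m) := by gcongr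
  have h6 : (16 : ℝ) * ((m : ℝ) + 1) ^ 2 * ((2 : ℝ) ^ 2) ^ m = c := by
    rw [hc]
    norm_num
  have h5 : 16 * ((m : ℝ) + 1) ^ 2 * (u ^ 2 / (c * d)) * (2 * |u|) ^ (2 * m) =
      1 / d * u ^ (2 * m + 2) := by
    rw [pow_split, mul_pow, pow_mul 2 2 m]
    have h7 : 16 * ((m : ℝ) + 1) ^ 2 * (u ^ 2 / (c * d)) * (((2 : ℝ) ^ 2) ^ m * |u| ^ (2 * m)) =
        (16 * ((m : ℝ) + 1) ^ 2 * ((2 : ℝ) ^ 2) ^ m) * (u ^ 2 / (c * d)) * |u| ^ (2 * m) := by ring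
    rw [h7, h6]
    field_simp
  linarith

theorem small_case (m : ℕ) {c d : ℝ} (hc : c = 16 * ((m : ℝ) + 1) ^ 2 * 4 ^ m) (_hc0 : 0 < c)
    (_hd0 : 0 < d) (hcd4 : 4 ≤ c * d) (u v : ℝ) (hcase : u ^ 2 ≤ (c * d) * v ^ 2) :
    16 * ((m : ℝ) + 1) ^ 2 * v ^ 2 * (|u| + 2 * |v|) ^ (2 * m) ≤
      c ^ (m + 1) * d ^ m * v ^ (2 * m + 2) := by
  have h0 : (|u| + 2 * |v|) ^ 2 ≤ 2 * u ^ 2 + 8 * v ^ 2 := by
    have e1 := sq_abs u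
    have e2 := sq_abs v
    nlinarith [sq_nonneg (|u| - 2 * |v|)]
  have h1 : (|u| + 2 * |v|) ^ 2 ≤ 4 * (c * d) * v ^ 2 := by
    have : 4 * v ^ 2 ≤ (c * d) * v ^ 2 := by
      have := sq_nonneg v
      gcongr
    linarith
  have h2 : (|u| + 2 * |v|) ^ (2 * m) ≤ (4 * (c * d) * v ^ 2) ^ m := by
    rw [pow_mul]
    exact pow_le_pow_left₀ (by positivity) h1 m
  have h3 : 16 * ((m : ℝ) + 1) ^ 2 * v ^ 2 * (|u| + 2 * |v|) ^ (2 * m) ≤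
      16 * ((m : ℝ) + 1) ^ 2 * v ^ 2 * (4 * (c * d) * v ^ 2) ^ m := by gcongr
  have h7 : c ^ (m + 1) = (16 * ((m : ℝ) + 1) ^ 2 * 4 ^ m) * c ^ m := by
    rw [pow_succ, ← hc]; ring
  have h4 : 16 * ((m : ℝ) + 1) ^ 2 * v ^ 2 * (4 * (c * d) * v ^ 2) ^ m =
      c ^ (m + 1) * d ^ m * v ^ (2 * m + 2) := by
    rw [h7, mul_pow, mul_pow, mul_pow, ← pow_mul, pow_add]
    ring
  linarith

/-- the pointwise inequality -/
theorem scalar_pt {M : ℕ} (hM : 1 ≤ M) {d : ℝ} (hd : 1 ≤ d) (u v w : ℝ) (hw : |w| ≤ 2 * |v|) :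
    (u + w) ^ (2 * M) ≤ (1 + 1 / d) * u ^ (2 * M) + (2 * M : ℕ) * u ^ (2 * M - 1) * w +
      cM M ^ M * d ^ (M - 1) * v ^ (2 * M) := by
  obtain ⟨m, rfl⟩ : ∃ m, M = m + 1 := ⟨M - 1, by omega⟩
  have e1 : 2 * (m + 1) = 2 * m + 2 := by ring
  have e2 : 2 * (m + 1) - 1 = 2 * m + 1 := by omega
  have e3 : m + 1 - 1 = m := by omega
  have ht := (abs_le.1 (taylor_pow u w (2 * m))).2
  rw [e2, e3, e1]
  have hd0 : 0 < d := by linarith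
  have hc1 : 1 ≤ cM (m + 1) := cM_one_le hM
  have hcval : cM (m + 1) = 16 * ((m : ℝ) + 1) ^ 2 * 4 ^ m := by
    unfold cM; push_cast; ring
  have hc4 : 4 ≤ cM (m + 1) := by
    have h1 : (1 : ℝ) ≤ ((m : ℝ) + 1) ^ 2 := by nlinarith [Nat.cast_nonneg (α := ℝ) m]
    have h2 : (1 : ℝ) ≤ 4 ^ m := one_le_pow₀ (by norm_num)
    have h3 : (1 : ℝ) ≤ ((m : ℝ) + 1) ^ 2 * 4 ^ m := one_le_mul_of_one_le_of_one_le h1 h2
    rw [hcval]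
    nlinarith
  have hcd4 : 4 ≤ cM (m + 1) * d := by nlinarith
  generalize cM (m + 1) = c at *
  have hw2 : w ^ 2 ≤ 4 * v ^ 2 := by
    have := pow_le_pow_left₀ (abs_nonneg w) hw 2
    rw [sq_abs, mul_pow, sq_abs] at this
    linarith
  have hR : ((2 * m : ℕ) + 2 : ℝ) ^ 2 * w ^ 2 * (|u| + |w|) ^ (2 * m) ≤
      16 * ((m : ℝ) + 1) ^ 2 * v ^ 2 * (|u| + 2 * |v|) ^ (2 * m) := by
    have h1 : ((2 * m : ℕ) + 2 : ℝ) ^ 2 = 4 * ((m : ℝ) + 1) ^ 2 := by push_cast; ring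
    rw [h1]
    have h2 : (|u| + |w|) ^ (2 * m) ≤ (|u| + 2 * |v|) ^ (2 * m) := by gcongr
    calc 4 * ((m : ℝ) + 1) ^ 2 * w ^ 2 * (|u| + |w|) ^ (2 * m)
        ≤ 4 * ((m : ℝ) + 1) ^ 2 * (4 * v ^ 2) * (|u| + 2 * |v|) ^ (2 * m) := by gcongr
      _ = _ := by ring
  have hmain : 16 * ((m : ℝ) + 1) ^ 2 * v ^ 2 * (|u| + 2 * |v|) ^ (2 * m) ≤
      1 / d * u ^ (2 * m + 2) + c ^ (m + 1) * d ^ m * v ^ (2 * m + 2) := by
    have hu0 : 0 ≤ 1 / d * u ^ (2 * m + 2) := by rw [pow_split]; positivity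
    have hv0 : 0 ≤ c ^ (m + 1) * d ^ m * v ^ (2 * m + 2) := by rw [pow_split]; positivity
    rcases le_total ((c * d) * v ^ 2) (u ^ 2) with hcase | hcase
    · have := large_case m hcval (by linarith) hd0 hcd4 u v hcase
      linarith
    · have := small_case m hcval (by linarith) hd0 hcd4 u v hcase
      linarith
  have hexp : (1 + 1 / d) * u ^ (2 * m + 2) = u ^ (2 * m + 2) + 1 / d * u ^ (2 * m + 2) := by ring
  linarith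

end Law

end P362
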