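import Vale.Agent.Lib.P362.Law.C1a

/-!
# P362 Law C1b: derivatives of the multilinear extension and conditioning
-/

namespace P362

namespace Law

open Finset

theorem sg_mul_self (b : Bool) : sg b * sg b = 1 := by cases b <;> simp [sg]

theorem abs_sg (b : Bool) : |sg b| = 1 := by cases b <;> simp [sg]

variable {V : Type} [Fintype V] [DecidableEq V]

/-- the weight of the value `b` at the variable `v` -/
noncomputable def wt (S : Finset V) (z : V → ℝ) (v : V) (b : Bool) : ℝ :=
  if v ∈ S then sg b / 2 else (1 + sg b * z v) / 2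

theorem DD_eq (f : (V → Bool) → ℝ) (S : Finset V) (z : V → ℝ) :
    DD f S z = ∑ x : V → Bool, f x * ∏ v, wt S z v (x v) := rfl

theorem wt_erase_update (S : Finset V) (z : V → ℝ) (p : V) (b c : Bool) :
    wt (S.erase p) (Function.update z p (sg b)) p c = if c = b then 1 else 0 := by
  unfold wt
  rw [if_neg (notMem_erase p S), Function.update_self]
  cases b <;> cases c <;> norm_num [sg]

theorem wt_erase_update_ne (S : Finset V) (z : V → ℝ) (p v : V) (hv : v ≠ p) (t : ℝ) (c : Bool) :
    wt (S.erase p) (Function.update z p t) v c = wt S z v c := by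
  unfold wt
  rw [Function.update_of_ne hv]
  have : v ∈ S.erase p ↔ v ∈ S := by simp [hv]
  simp only [this]

theorem prod_split (S : Finset V) (z : V → ℝ) (p : V) (x : V → Bool) :
    ∏ v, wt S z v (x v) = wt S z p (x p) * ∏ v ∈ univ.erase p, wt S z v (x v) :=
  (mul_prod_erase univ _ (mem_univ p)).symm

theorem prod_split_update (S : Finset V) (z : V → ℝ) (p : V) (b : Bool) (x : V → Bool) :
    ∏ v, wt (S.erase p) (Function.update z p (sg b)) v (x v) =
      (if x p = b then 1 else 0) * ∏ v ∈ univ.erase p, wt S z v (x v) := by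
  rw [prod_split, wt_erase_update]
  congr 1
  refine prod_congr rfl fun v hv => ?_
  exact wt_erase_update_ne S z p v (ne_of_mem_erase hv) _ _

/-- conditioning on the value of one variable -/
theorem DD_split (f : (V → Bool) → ℝ) (S : Finset V) (z : V → ℝ) (p : V) :
    DD f S z = ∑ b : Bool, wt S z p b * DD f (S.erase p) (Function.update z p (sg b)) := by
  simp only [DD_eq]
  simp_rw [mul_sum]
  rw [sum_comm]
  refine sum_congr rfl fun x _ => ?_
  simp_rw [prod_split_update]
  rw [prod_split]
  rw [Fintype.sum_bool]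
  cases hx : x p <;> simp <;> ring

/-- only the inputs with `x_p = b` matter after conditioning -/
theorem DD_congr (f g : (V → Bool) → ℝ) (S : Finset V) (z : V → ℝ) (p : V) (b : Bool)
    (h : ∀ x, x p = b → f x = g x) (hp : p ∉ S) :
    DD f S (Function.update z p (sg b)) = DD g S (Function.update z p (sg b)) := by
  simp only [DD_eq]
  refine sum_congr rfl fun x _ => ?_
  have hS : S.erase p = S := erase_eq_of_notMem hp
  have h1 := prod_split_update S z p b x
  rw [hS] at h1
  rw [h1]
  by_cases hx : x p = b
  · rw [h x hx]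
  · rw [if_neg hx]
    ring

/-- constants -/
theorem DD_const (c : ℝ) (S : Finset V) (z : V → ℝ) :
    DD (fun _ => c) S z = if S = ∅ then c else 0 := by
  simp only [DD_eq]
  rw [← mul_sum]
  have h1 : ∑ x : V → Bool, ∏ v, wt S z v (x v) = ∏ v, ∑ b : Bool, wt S z v b := by
    rw [prod_univ_sum, Fintype.piFinset_univ]
  rw [h1]
  have h2 : ∀ v, ∑ b : Bool, wt S z v b = if v ∈ S then 0 else 1 := by
    intro v
    rw [Fintype.sum_bool]
    unfold wt
    by_cases hv : v ∈ S
    · simp only [hv, if_true, sg]
      norm_num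
    · simp only [hv, if_false, sg]
      norm_num
      ring
  simp_rw [h2]
  by_cases hS : S = ∅
  · subst hS
    simp
  · rw [if_neg hS]
    obtain ⟨v, hv⟩ := nonempty_iff_ne_empty.2 hS
    have h3 : ∏ v : V, (if v ∈ S then (0 : ℝ) else 1) = 0 :=
      Finset.prod_eq_zero (mem_univ v) (if_pos hv)
    rw [h3, mul_zero]

theorem ind_node (p : V) (t0 t1 : DT V Bool) (b : Bool) (x : V → Bool) (hx : x p = b) :
    ind (DT.node p t0 t1) x = ind (if b then t1 else t0) x := by
  subst hx
  unfold ind
  cases hx : x p <;> simp [DT.eval, hx]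

/-- the level sum -/
noncomputable def QQa (f : (V → Bool) → ℝ) (a : Finset V → ℝ) (z : V → ℝ) : ℝ :=
  ∑ S, a S * DD f S z

theorem sum_finset_split (p : V) (g : Finset V → ℝ) :
    ∑ S, g S = ∑ S ∈ (univ.erase p).powerset, (g S + g (insert p S)) := by
  have h1 : (univ : Finset (Finset V)) = (insert p (univ.erase p)).powerset := by
    rw [insert_erase (mem_univ p), powerset_univ]
  rw [h1, sum_powerset_insert (notMem_erase p univ), sum_add_distrib]

/-- the new coefficients -/
noncomputable def na (a : Finset V → ℝ) (p : V) (φ : ℝ) (S : Finset V) : ℝ :=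
  if p ∈ S then 0 else a S + φ * a (insert p S)

/-- the transition -/
theorem QQa_node (p : V) (t0 t1 : DT V Bool) (a : Finset V → ℝ) (z : V → ℝ) (φ : Bool → ℝ)
    (hφ : ∀ b, ∀ S, p ∉ S → (1 + sg b * z p) / 2 * (φ b * a (insert p S)) =
      sg b / 2 * a (insert p S)) :
    QQa (ind (DT.node p t0 t1)) a z =
      ∑ b : Bool, (1 + sg b * z p) / 2 *
        QQa (ind (if b then t1 else t0)) (na a p (φ b)) (Function.update z p (sg b)) := by
  unfold QQa
  simp_rw [mul_sum]
  rw [sum_comm, sum_finset_split p, sum_finset_split p]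
  refine sum_congr rfl fun S hS => ?_
  have hp : p ∉ S := fun h => (notMem_erase p univ) ((mem_powerset.1 hS) h)
  have hS' : S.erase p = S := erase_eq_of_notMem hp
  have hpS : p ∈ insert p S := mem_insert_self p S
  have hes : (insert p S).erase p = S := erase_insert hp
  have hD : ∀ b, DD (ind (DT.node p t0 t1)) S (Function.update z p (sg b)) =
      DD (ind (if b then t1 else t0)) S (Function.update z p (sg b)) :=
    fun b => DD_congr _ _ S z p b (fun x hx => ind_node p t0 t1 b x hx) hp
  rw [DD_split _ S z p, DD_split _ (insert p S) z p, hS', hes]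
  simp_rw [hD]
  rw [← sum_add_distrib, mul_sum, mul_sum, ← sum_add_distrib]
  refine sum_congr rfl fun b _ => ?_
  have h1 : wt S z p b = (1 + sg b * z p) / 2 := if_neg hp
  have h2 : wt (insert p S) z p b = sg b / 2 := if_pos hpS
  have h3 : na a p (φ b) S = a S + φ b * a (insert p S) := if_neg hp
  have h4 : na a p (φ b) (insert p S) = 0 := if_pos hpS
  rw [h1, h2, h3, h4]
  have h5 := hφ b S hp
  linear_combination (-(DD (ind (if b then t1 else t0)) S (Function.update z p (sg b)))) * h5

end Law

end P362
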