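import Vale.Agent.Lib.P362.Law.Defs

/-! P362 Law/DDB: bounds for `DD`. -/

namespace P362.Law

variable {V : Type} [Fintype V] [DecidableEq V]

omit [Fintype V] in
private theorem ddb_sum_factor (S : Finset V) (z : V → ℝ) (v : V) :
    ∑ b : Bool, |(if v ∈ S then sg b / 2 else (1 + sg b * z v) / 2)| ≤ max 1 |z v| := by
  rw [Fintype.sum_bool]
  by_cases h : v ∈ S
  · simp only [h, if_true, sg]
    have : |((-1 : ℝ)) / 2| + |(1 : ℝ) / 2| = 1 := by
      rw [abs_div, abs_div]; norm_num
    simp only [Bool.false_eq_true, if_false]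
    rw [this]
    exact le_max_left _ _
  · simp only [h, if_false, sg, Bool.false_eq_true, if_true]
    rcases le_total 0 (z v) with h0 | h0
    · rcases le_total (z v) 1 with h1 | h1
      · rw [abs_of_nonneg (show 0 ≤ (1 + -1 * z v) / 2 by linarith),
          abs_of_nonneg (show 0 ≤ (1 + 1 * z v) / 2 by linarith)]
        have := le_max_left (1 : ℝ) |z v|
        linarith
      · rw [abs_of_nonpos (show (1 + -1 * z v) / 2 ≤ 0 by linarith),
          abs_of_nonneg (show 0 ≤ (1 + 1 * z v) / 2 by linarith)]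
        have := le_max_right (1 : ℝ) |z v|
        rw [abs_of_nonneg h0] at this ⊢
        linarith
    · rcases le_total (-1) (z v) with h1 | h1
      · rw [abs_of_nonneg (show 0 ≤ (1 + -1 * z v) / 2 by linarith),
          abs_of_nonneg (show 0 ≤ (1 + 1 * z v) / 2 by linarith)]
        have := le_max_left (1 : ℝ) |z v|
        linarith
      · rw [abs_of_nonneg (show 0 ≤ (1 + -1 * z v) / 2 by linarith),
          abs_of_nonpos (show (1 + 1 * z v) / 2 ≤ 0 by linarith)]
        have := le_max_right (1 : ℝ) |z v|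
        rw [abs_of_nonpos h0] at this ⊢
        linarith

theorem DD_abs (f : (V → Bool) → ℝ) (B : ℝ) (hf : ∀ x, |f x| ≤ B) (S : Finset V) (z : V → ℝ) :
    |DD f S z| ≤ B * ∏ v, max 1 |z v| := by
  have hB : 0 ≤ B := (abs_nonneg _).trans (hf (fun _ => true))
  unfold DD
  calc |∑ x : V → Bool, f x * ∏ v, (if v ∈ S then sg (x v) / 2 else (1 + sg (x v) * z v) / 2)|
      ≤ ∑ x : V → Bool,
        |f x * ∏ v, (if v ∈ S then sg (x v) / 2 else (1 + sg (x v) * z v) / 2)| :=
        Finset.abs_sum_le_sum_abs _ _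
    _ ≤ ∑ x : V → Bool,
        B * ∏ v, |(if v ∈ S then sg (x v) / 2 else (1 + sg (x v) * z v) / 2)| := by
        apply Finset.sum_le_sum
        intro x _
        rw [abs_mul, Finset.abs_prod]
        exact mul_le_mul_of_nonneg_right (hf x) (Finset.prod_nonneg fun _ _ => abs_nonneg _)
    _ = B * ∏ v, ∑ b : Bool, |(if v ∈ S then sg b / 2 else (1 + sg b * z v) / 2)| := by
        rw [← Finset.mul_sum, Finset.prod_univ_sum, Fintype.piFinset_univ]
    _ ≤ B * ∏ v, max 1 |z v| := by
        apply mul_le_mul_of_nonneg_left _ hB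
        apply Finset.prod_le_prod
        · intro v _
          exact Finset.sum_nonneg fun _ _ => abs_nonneg _
        · intro v _
          exact ddb_sum_factor S z v

theorem clip_abs (z : ℝ) : |clip z| ≤ 1 / 2 := by
  unfold clip
  rw [abs_le]
  constructor
  · exact le_max_left _ _
  · apply max_le
    · norm_num
    · exact min_le_left _ _

theorem clip_eq (z : ℝ) (h : |z| ≤ 1 / 2) : clip z = z := by
  unfold clip
  obtain ⟨h1, h2⟩ := abs_le.1 h
  rw [min_eq_right h2, max_eq_right h1]

theorem DD_zero (f : (V → Bool) → ℝ) : DD f ∅ 0 = (∑ x, f x) / 2 ^ Fintype.card V := by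
  unfold DD
  simp only [Finset.notMem_empty, if_false, Pi.zero_apply, mul_zero, add_zero]
  rw [Finset.sum_div]
  apply Finset.sum_congr rfl
  intro x _
  rw [Finset.prod_const, Finset.card_univ, one_div, inv_pow, div_eq_mul_inv]

/-- `DD` is monotone/linear: a convex combination of the values of `f` when `|z v| ≤ 1` -/
theorem DD_abs_le (f : (V → Bool) → ℝ) (B : ℝ) (hf : ∀ x, |f x| ≤ B) (z : V → ℝ)
    (hz : ∀ v, |z v| ≤ 1) : |DD f ∅ z| ≤ B := by
  have := DD_abs f B hf ∅ z
  have h1 : ∏ v, max 1 |z v| = 1 := by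
    apply Finset.prod_eq_one
    intro v _
    exact max_eq_left (hz v)
  rw [h1, mul_one] at this
  exact this

end P362.Law
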