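import Vale.Agent.Lib.P362.Law.Defs

/-! P362 Law/DG: derivative and value of `G`. -/

open MvPolynomial

namespace P362.Law

variable {m l : ℕ}

private theorem D_prod {A ι : Type*} [CommRing A] [Algebra ℝ A] [DecidableEq ι]
    (D : Derivation ℝ A A) (s : Finset ι) (f : ι → A) :
    D (∏ i ∈ s, f i) = ∑ i ∈ s, (∏ j ∈ s.erase i, f j) * D (f i) := by
  induction s using Finset.induction_on with
  | empty => simp
  | insert a s ha ih =>
    rw [Finset.prod_insert ha, D.leibniz, ih, Finset.sum_insert ha, Finset.erase_insert ha,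
      smul_eq_mul, smul_eq_mul, Finset.mul_sum, add_comm]
    congr 1
    refine Finset.sum_congr rfl fun i hi => ?_
    have hia : i ≠ a := fun h => ha (h ▸ hi)
    rw [Finset.erase_insert_of_ne (Ne.symm hia), Finset.prod_insert
      (fun h => ha (Finset.mem_of_mem_erase h)), mul_assoc]

theorem pderiv_G (δ : ℝ) (c : Fin (m + 1) → ℝ) (f : (VV m l → Bool) → ℝ)
    (S : Finset (VV m l)) (u : GV m l) :
    pderiv u (G δ c f S) =
      ∑ v, if v ∈ S then 0 else G δ c f (insert v S) * pderiv u (Zp δ c v) := by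
  have h1 : pderiv u (G δ c f S) = ∑ x : VV m l → Bool, ∑ v : VV m l,
      if v ∈ S then 0 else (C (f x) * ∏ w, (if w ∈ insert v S then C (sg (x w) / 2)
        else C (1 / 2) + C (sg (x w) / 2) * Zp δ c w)) * pderiv u (Zp δ c v) := by
    unfold G
    rw [map_sum]
    refine Finset.sum_congr rfl fun x _ => ?_
    rw [pderiv_C_mul, D_prod, Finset.mul_sum]
    refine Finset.sum_congr rfl fun v _ => ?_
    by_cases hv : v ∈ S
    · rw [if_pos hv, if_pos hv, pderiv_C, mul_zero, mul_zero]
    · rw [if_neg hv, if_neg hv, map_add, pderiv_C, zero_add, pderiv_C_mul]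
      rw [← Finset.mul_prod_erase Finset.univ _ (Finset.mem_univ v)]
      rw [if_pos (Finset.mem_insert_self v S)]
      have h2 : ∏ w ∈ Finset.univ.erase v, (if w ∈ insert v S then C (sg (x w) / 2)
          else C (1 / 2) + C (sg (x w) / 2) * Zp δ c w) =
          ∏ w ∈ Finset.univ.erase v, (if w ∈ S then C (sg (x w) / 2)
          else C (1 / 2) + C (sg (x w) / 2) * Zp δ c w) := by
        refine Finset.prod_congr rfl fun w hw => ?_
        have hwv : w ≠ v := Finset.ne_of_mem_erase hw
        by_cases hwS : w ∈ S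
        · rw [if_pos (Finset.mem_insert_of_mem hwS), if_pos hwS]
        · rw [if_neg (fun h => (Finset.mem_insert.1 h).elim hwv hwS), if_neg hwS]
      rw [h2]
      ring
  rw [h1, Finset.sum_comm]
  refine Finset.sum_congr rfl fun v _ => ?_
  by_cases hv : v ∈ S
  · simp only [if_pos hv, Finset.sum_const_zero]
  · simp only [if_neg hv]
    rw [← Finset.sum_mul]
    rfl

theorem eval_G (δ : ℝ) (c : Fin (m + 1) → ℝ) (f : (VV m l → Bool) → ℝ)
    (S : Finset (VV m l)) (g : GV m l → ℝ) :
    eval g (G δ c f S) = DD f S (Zv δ c g) := by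
  unfold G DD
  rw [map_sum]
  refine Finset.sum_congr rfl fun x _ => ?_
  rw [map_mul, eval_C, map_prod]
  congr 1
  refine Finset.prod_congr rfl fun v _ => ?_
  by_cases hv : v ∈ S
  · rw [if_pos hv, if_pos hv, eval_C]
  · rw [if_neg hv, if_neg hv, map_add, map_mul, eval_C, eval_C]
    unfold Zv
    ring

theorem eval_Yp (g : GV m l → ℝ) (u : GV m l) : eval g (Yp u) = Yv g u := by
  unfold Yp Yv
  rw [map_sum]
  refine Finset.sum_congr rfl fun i _ => ?_
  rw [map_mul, eval_C, eval_X]

theorem pderiv_Ap (δ : ℝ) (u : GV m l) (j : Fin (m + 1)) (i : I l) :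
    pderiv u (Ap δ j i) = if j = u.1.succ then C (δ * Hm i u.2) else 0 := by
  refine Fin.cases ?_ (fun r => ?_) j
  · rw [if_neg (Fin.succ_ne_zero u.1).symm]
    exact pderiv_one
  · have h1 : (Ap δ r.succ i : MvPolynomial (GV m l) ℝ) = C δ * Yp (r, i) := rfl
    rw [h1, pderiv_C_mul]
    unfold Yp
    rw [map_sum]
    have h2 : ∀ i' : I l, pderiv u (C (Hm i i') * X (r, i') : MvPolynomial (GV m l) ℝ) =
        if i' = u.2 then (if r = u.1 then C (Hm i i') else 0) else 0 := by
      intro i'
      rw [pderiv_C_mul, pderiv_X]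
      by_cases h : (r, i') = u
      · subst h
        simp
      · have h3 : (Pi.single u (1 : MvPolynomial (GV m l) ℝ) : GV m l → MvPolynomial (GV m l) ℝ)
            (r, i') = 0 := by
          rw [Pi.single_apply, if_neg h]
        rw [h3, mul_zero]
        by_cases h4 : i' = u.2
        · rw [if_pos h4, if_neg]
          intro h5
          exact h (Prod.ext h5 h4)
        · rw [if_neg h4]
    simp only [h2]
    rw [Finset.sum_ite_eq' Finset.univ u.2, if_pos (Finset.mem_univ _)]
    by_cases h : r = u.1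
    · rw [if_pos h, if_pos (by rw [h]), ← C_mul]
    · rw [if_neg h, if_neg (fun h' => h (Fin.succ_injective _ h')), mul_zero]

theorem pderiv_Bp (δ : ℝ) (u : GV m l) (j : Fin (m + 1)) (i : I l) :
    pderiv u (Bp δ j i) = if j = u.1.castSucc ∧ i = u.2 then C δ else 0 := by
  refine Fin.lastCases ?_ (fun r => ?_) j
  · have h1 : (Bp δ (Fin.last m) i : MvPolynomial (GV m l) ℝ) = 1 := by
      unfold Bp
      rw [Fin.lastCases_last]
    rw [h1, if_neg]
    · exact pderiv_one
    · rintro ⟨h, _⟩
      exact (Fin.castSucc_lt_last u.1).ne h.symm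
  · have h1 : (Bp δ r.castSucc i : MvPolynomial (GV m l) ℝ) = C δ * X (r, i) := by
      unfold Bp
      rw [Fin.lastCases_castSucc]
    rw [h1, pderiv_C_mul, pderiv_X, Pi.single_apply]
    by_cases h : (r, i) = u
    · subst h
      simp
    · rw [if_neg h, mul_zero, if_neg]
      rintro ⟨h2, h3⟩
      exact h (Prod.ext (Fin.castSucc_injective _ h2) h3)

end P362.Law
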