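import Vale.Agent.Lib.P362.Law.Rot
import Vale.Agent.Lib.P362.Law.DG

/-! P362 Law/TailB: expectations of products. -/

open MeasureTheory ProbabilityTheory MvPolynomial

namespace P362.Law

variable {m l : ℕ}

private theorem tailB_eval (g : GV m l → ℝ) (P : MvPolynomial (GV m l) ℝ) (q : Polynomial ℝ) :
    eval g (Polynomial.aeval P q) = q.eval (eval g P) := by
  rw [Polynomial.aeval_def, Polynomial.hom_eval₂]
  have h : (eval g).comp (algebraMap ℝ (MvPolynomial (GV m l) ℝ)) = RingHom.id ℝ := by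
    ext r
    simp
  rw [h]
  rfl

theorem Ep_prodX (q : Polynomial ℝ) :
    Ep (∏ u : GV m l, Polynomial.aeval (X u : MvPolynomial (GV m l) ℝ) q) =
      (∫ x, q.eval x ∂(gaussianReal 0 1)) ^ (m * 2 ^ l) := by
  unfold Ep gam
  have h : ∀ g : GV m l → ℝ,
      eval g (∏ u : GV m l, Polynomial.aeval (X u : MvPolynomial (GV m l) ℝ) q) =
        ∏ u : GV m l, q.eval (g u) := by
    intro g
    rw [map_prod]
    refine Finset.prod_congr rfl fun u _ => ?_
    rw [tailB_eval, eval_X]
  simp only [h]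
  rw [integral_fintype_prod_eq_prod (fun (_ : GV m l) (x : ℝ) => q.eval x), Finset.prod_const]
  congr 1
  simp [Finset.card_univ]

/-- from `Ep_prodX` and `Ep_rot` -/
theorem Ep_prodY (q : Polynomial ℝ) :
    Ep (∏ u : GV m l, Polynomial.aeval (Yp u : MvPolynomial (GV m l) ℝ) q) =
      (∫ x, q.eval x ∂(gaussianReal 0 1)) ^ (m * 2 ^ l) := by
  rw [← Ep_prodX q, ← Ep_rot (∏ u : GV m l, Polynomial.aeval (X u : MvPolynomial (GV m l) ℝ) q),
    map_prod]
  congr 1
  refine Finset.prod_congr rfl fun u _ => ?_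
  rw [← Polynomial.aeval_algHom_apply, bind₁_X_right]

/-- moment of one coordinate -/
theorem Ep_X_pow (u : GV m l) (p : ℕ) : Ep (X u ^ (2 * p)) = mom p := by
  unfold Ep gam mom
  have h : ∀ g : GV m l → ℝ, eval g (X u ^ (2 * p) : MvPolynomial (GV m l) ℝ) =
      g u ^ (2 * p) := by
    intro g
    rw [map_pow, eval_X]
  simp only [h]
  have h2 := measurePreserving_eval (fun _ : GV m l => gaussianReal 0 1) u
  conv_rhs => rw [← h2.map_eq]
  rw [integral_map h2.measurable.aemeasurable (by fun_prop)]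

theorem Ep_Y_pow (u : GV m l) (p : ℕ) : Ep (Yp u ^ (2 * p)) = mom p := by
  rw [← Ep_X_pow u p, ← Ep_rot (X u ^ (2 * p)), map_pow, bind₁_X_right]

end P362.Law
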