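import Vale.Agent.Lib.P362.Law.TailA
import Vale.Agent.Lib.P362.Law.TailB

/-! P362 Law/TailC: the integral over the bad event. -/

open MeasureTheory ProbabilityTheory MvPolynomial

namespace P362.Law

variable {m l : ℕ}

/-- one variable polynomial `(1 + (δ x)^(2p))^n` -/
private noncomputable def qq (δ : ℝ) (p n : ℕ) : Polynomial ℝ :=
  (1 + Polynomial.C (δ ^ (2 * p)) * Polynomial.X ^ (2 * p)) ^ n

private theorem qq_eval (δ : ℝ) (p n : ℕ) (x : ℝ) :
    (qq δ p n).eval x = (1 + (δ * x) ^ (2 * p)) ^ n := by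
  simp [qq, mul_pow]

private theorem aeval_X_eval (δ : ℝ) (p n : ℕ) (g : GV m l → ℝ) :
    eval g (∏ u : GV m l, Polynomial.aeval (X u : MvPolynomial (GV m l) ℝ) (qq δ p n)) =
      ∏ u : GV m l, (1 + (δ * g u) ^ (2 * p)) ^ n := by
  rw [map_prod]
  refine Finset.prod_congr rfl fun u _ => ?_
  simp [qq, mul_pow]

private theorem aeval_Y_eval (δ : ℝ) (p n : ℕ) (g : GV m l → ℝ) :
    eval g (∏ u : GV m l, Polynomial.aeval (Yp u : MvPolynomial (GV m l) ℝ) (qq δ p n)) =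
      ∏ u : GV m l, (1 + (δ * Yv g u) ^ (2 * p)) ^ n := by
  rw [map_prod]
  refine Finset.prod_congr rfl fun u _ => ?_
  simp [qq, mul_pow, eval_Yp]

theorem integrable_BW (δ : ℝ) (c : Fin (m + 1) → ℝ) (hc : ∀ j, |c j| ≤ 1) :
    Integrable (fun g => iBad δ g * W δ c g) (gam m l) := by
  have hint := integrable_eval (m := m) (l := l)
    ((∏ u : GV m l, Polynomial.aeval (X u : MvPolynomial (GV m l) ℝ) (qq δ 1 1)) *
      (∏ u : GV m l, Polynomial.aeval (Yp u : MvPolynomial (GV m l) ℝ) (qq δ 1 1)))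
  refine hint.mono' ?_ ?_
  · refine (Measurable.aestronglyMeasurable ?_)
    refine (measurable_iBad δ).mul ?_
    unfold W
    refine Finset.measurable_prod _ fun v _ => ?_
    exact measurable_const.max ((continuous_Zv δ c v).abs.measurable)
  · refine Filter.Eventually.of_forall fun g => ?_
    have hW := W_le δ c hc 1 le_rfl g
    have h1 := one_le_W δ c g
    rw [map_mul, aeval_X_eval, aeval_Y_eval, Real.norm_eq_abs, abs_mul, abs_of_nonneg
      (show (0 : ℝ) ≤ W δ c g by linarith)]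
    have hb : |iBad δ g| ≤ 1 := by
      unfold iBad
      split_ifs <;> simp
    calc |iBad δ g| * W δ c g ≤ 1 * W δ c g := by
          exact mul_le_mul_of_nonneg_right hb (by linarith)
      _ = W δ c g := one_mul _
      _ ≤ _ := by simpa using hW

/-- `iBad * W ≤ (lam * iBad + W^2 / lam) / 2`, `W^2 ≤ (Π_g^4 + Π_Y^4)/2` -/
theorem int_BW (δ : ℝ) (c : Fin (m + 1) → ℝ) (hc : ∀ j, |c j| ≤ 1) (p : ℕ) (hp : 1 ≤ p)
    (lam : ℝ) (hlam : 0 < lam) :
    ∫ g, iBad δ g * W δ c g ∂(gam m l) ≤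
      (lam * (2 * (m * 2 ^ l) * ((2 * δ) ^ (2 * p) * mom p)) +
        (∫ x, (1 + (δ * x) ^ (2 * p)) ^ 4 ∂(gaussianReal 0 1)) ^ (m * 2 ^ l) / lam) / 2 := by
  set PX : MvPolynomial (GV m l) ℝ :=
    ∏ u : GV m l, Polynomial.aeval (X u : MvPolynomial (GV m l) ℝ) (qq δ p 4) with hPX
  set PY : MvPolynomial (GV m l) ℝ :=
    ∏ u : GV m l, Polynomial.aeval (Yp u : MvPolynomial (GV m l) ℝ) (qq δ p 4) with hPY
  set SS : MvPolynomial (GV m l) ℝ :=
    ∑ u : GV m l, (C ((2 * δ) ^ (2 * p)) * X u ^ (2 * p) +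
      C ((2 * δ) ^ (2 * p)) * Yp u ^ (2 * p)) with hSS
  set Q : MvPolynomial (GV m l) ℝ :=
    C (lam / 2) * SS + C (1 / (4 * lam)) * (PX + PY) with hQ
  have hpt : ∀ g, iBad δ g * W δ c g ≤ eval g Q := by
    intro g
    have hW := W_le δ c hc p hp g
    have h1 := one_le_W δ c g
    have hB := iBad_le δ p g
    have hib : iBad δ g = 0 ∨ iBad δ g = 1 := by
      unfold iBad
      split_ifs <;> simp
    have hSe : eval g SS = ∑ u : GV m l, ((2 * (δ * g u)) ^ (2 * p) +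
        (2 * (δ * Yv g u)) ^ (2 * p)) := by
      rw [hSS, map_sum]
      refine Finset.sum_congr rfl fun u _ => ?_
      simp only [map_add, map_mul, map_pow, eval_C, eval_X, eval_Yp]
      rw [← mul_pow, ← mul_pow, mul_assoc, mul_assoc]
    have hXe : eval g PX = (∏ u : GV m l, (1 + (δ * g u) ^ (2 * p))) ^ 4 := by
      rw [hPX, aeval_X_eval, Finset.prod_pow]
    have hYe : eval g PY = (∏ u : GV m l, (1 + (δ * Yv g u) ^ (2 * p))) ^ 4 := by
      rw [hPY, aeval_Y_eval, Finset.prod_pow]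
    set a := ∏ u : GV m l, (1 + (δ * g u) ^ (2 * p)) with ha
    set b := ∏ u : GV m l, (1 + (δ * Yv g u) ^ (2 * p)) with hb
    have hQe : eval g Q = lam / 2 * (∑ u : GV m l, ((2 * (δ * g u)) ^ (2 * p) +
        (2 * (δ * Yv g u)) ^ (2 * p))) + 1 / (4 * lam) * (a ^ 4 + b ^ 4) := by
      rw [hQ]
      simp only [map_add, map_mul, eval_C]
      rw [hSe, hXe, hYe]
    rw [hQe]
    have hW0 : 0 ≤ W δ c g := by linarith
    have hW2 : (W δ c g) ^ 2 ≤ (a ^ 4 + b ^ 4) / 2 := by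
      have : (W δ c g) ^ 2 ≤ (a * b) ^ 2 := pow_le_pow_left₀ hW0 hW 2
      nlinarith [sq_nonneg (a ^ 2 - b ^ 2)]
    have hAG : iBad δ g * W δ c g ≤ lam / 2 * iBad δ g + (W δ c g) ^ 2 / (2 * lam) := by
      rcases hib with h | h
      · rw [h]; simp; positivity
      · rw [h]
        have h2 : 0 ≤ (lam - W δ c g) ^ 2 / (2 * lam) := by positivity
        have h3 : (lam - W δ c g) ^ 2 / (2 * lam) =
            lam / 2 * 1 + (W δ c g) ^ 2 / (2 * lam) - 1 * W δ c g := by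
          field_simp
          ring
        linarith
    have h4 : lam / 2 * iBad δ g ≤ lam / 2 * (∑ u : GV m l, ((2 * (δ * g u)) ^ (2 * p) +
        (2 * (δ * Yv g u)) ^ (2 * p))) :=
      mul_le_mul_of_nonneg_left hB (by positivity)
    have h5 : (W δ c g) ^ 2 / (2 * lam) ≤ 1 / (4 * lam) * (a ^ 4 + b ^ 4) := by
      have : 1 / (4 * lam) * (a ^ 4 + b ^ 4) = ((a ^ 4 + b ^ 4) / 2) / (2 * lam) := by
        field_simp
        ring
      rw [this]
      exact div_le_div_of_nonneg_right hW2 (by positivity)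
    linarith
  have hle : ∫ g, iBad δ g * W δ c g ∂(gam m l) ≤ Ep Q :=
    integral_mono (integrable_BW δ c hc) (integrable_eval Q) hpt
  have hEX : Ep PX = (∫ x, (1 + (δ * x) ^ (2 * p)) ^ 4 ∂(gaussianReal 0 1)) ^ (m * 2 ^ l) := by
    rw [hPX, Ep_prodX]
    simp only [qq_eval]
  have hEY : Ep PY = (∫ x, (1 + (δ * x) ^ (2 * p)) ^ 4 ∂(gaussianReal 0 1)) ^ (m * 2 ^ l) := by
    rw [hPY, Ep_prodY]
    simp only [qq_eval]
  have hES : Ep SS = 2 * (m * 2 ^ l) * ((2 * δ) ^ (2 * p) * mom p) := by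
    rw [hSS, Ep_sum]
    have : ∀ u ∈ (Finset.univ : Finset (GV m l)),
        Ep (C ((2 * δ) ^ (2 * p)) * X u ^ (2 * p) +
          C ((2 * δ) ^ (2 * p)) * Yp u ^ (2 * p)) = 2 * ((2 * δ) ^ (2 * p) * mom p) := by
      intro u _
      rw [Ep_add, Ep_C_mul, Ep_C_mul, Ep_X_pow, Ep_Y_pow]
      ring
    rw [Finset.sum_congr rfl this]
    simp
    ring
  rw [hQ, Ep_add, Ep_C_mul, Ep_C_mul, Ep_add, hEX, hEY, hES] at hle
  refine hle.trans (le_of_eq ?_)
  field_simp
  ring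

end P362.Law
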