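import Vale.Agent.Lib.P362.Law.DerivT
import Vale.Agent.Lib.P362.Law.DG

/-! P362 Law/Van: with the last block zero all blocks may be replaced by zero. -/

open MvPolynomial

namespace P362.Law

variable {m l : ℕ}

theorem Van_Ep_zero : Ep (0 : MvPolynomial (GV m l) ℝ) = 0 := by
  have h := Ep_C (m := m) (l := l) 0
  rwa [map_zero] at h

theorem Van_pderiv_Zp (δ : ℝ) (c : Fin (m + 1) → ℝ) (v : VV m l) (j : Fin m) (i : I l)
    (hc : c j.succ = 0) (hv : v ≠ (j.castSucc, i)) : pderiv (j, i) (Zp δ c v) = 0 := by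
  unfold Zp
  rw [pderiv_C_mul, Derivation.leibniz, pderiv_Ap, pderiv_Bp]
  by_cases h1 : v.1 = j.succ
  · rw [h1, hc, map_zero, zero_mul]
  · rw [if_neg h1, smul_zero, add_zero]
    have h2 : ¬ (v.1 = j.castSucc ∧ v.2 = i) := fun h => hv (Prod.ext h.1 h.2)
    rw [if_neg h2, smul_zero, mul_zero]

/-- if the blocks above `j` are zero (`j` not the last block), the derivative in `c j` vanishes
(integrate `X (j,i)` by parts: `Ap j` does not contain it, block `j+1` is zero) -/
theorem deriv_zero (δ : ℝ) (c : Fin (m + 1) → ℝ) (f : (VV m l → Bool) → ℝ)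
    (j : Fin m) (hc : ∀ r, j.castSucc < r → c r = 0) (i : I l) :
    Ep (Ap δ j.castSucc i * Bp δ j.castSucc i * G δ c f {(j.castSucc, i)}) = 0 := by
  have hB : Bp δ j.castSucc i = C δ * X (j, i) := by
    unfold Bp
    rw [Fin.lastCases_castSucc]
  have h1 : Ap δ j.castSucc i * Bp δ j.castSucc i * G δ c f {(j.castSucc, i)} =
      C δ * (X (j, i) * (Ap δ j.castSucc i * G δ c f {(j.castSucc, i)})) := by
    rw [hB]
    ring
  have hcs : c j.succ = 0 := hc _ Fin.castSucc_lt_succ
  have hG : pderiv (j, i) (G δ c f {(j.castSucc, i)}) = 0 := by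
    rw [pderiv_G]
    refine Finset.sum_eq_zero fun v _ => ?_
    by_cases hv : v ∈ ({(j.castSucc, i)} : Finset (VV m l))
    · rw [if_pos hv]
    · rw [if_neg hv, Van_pderiv_Zp δ c v j i hcs fun h => hv (Finset.mem_singleton.2 h), mul_zero]
  have hA : pderiv (j, i) (Ap δ j.castSucc i) = 0 := by
    rw [pderiv_Ap, if_neg]
    intro h
    exact (Fin.castSucc_lt_succ (i := j)).ne h
  rw [h1, Ep_C_mul, ibp, Derivation.leibniz, hG, hA, smul_zero, smul_zero, add_zero, Van_Ep_zero,
    mul_zero]

theorem Van_zero (δ : ℝ) (c : Fin (m + 1) → ℝ) (f : (VV m l → Bool) → ℝ)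
    (hc : ∀ r, c r = 0) : Ep (G δ c f ∅) = DD f ∅ 0 := by
  have hz : ∀ g : GV m l → ℝ, Zv δ c g = 0 := by
    intro g
    funext v
    unfold Zv Zp
    rw [map_mul, eval_C, hc, zero_mul]
    rfl
  have h1 : Ep (G δ c f ∅) = Ep (C (DD f ∅ 0) : MvPolynomial (GV m l) ℝ) := by
    unfold Ep
    congr 1
    funext g
    rw [eval_G, hz, eval_C]
  rw [h1, Ep_C]

/-- `E f(Z) = f(0)` if the last block is zero -/
theorem Ep_last_zero (δ : ℝ) (c : Fin (m + 1) → ℝ) (f : (VV m l → Bool) → ℝ)
    (hc : c (Fin.last m) = 0) : Ep (G δ c f ∅) = DD f ∅ 0 := by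
  have key : ∀ k : ℕ, k ≤ m → ∀ c : Fin (m + 1) → ℝ, (∀ r : Fin (m + 1), k ≤ r.val → c r = 0) →
      Ep (G δ c f ∅) = DD f ∅ 0 := by
    intro k
    induction k with
    | zero => exact fun _ c hc => Van_zero δ c f fun r => hc r (Nat.zero_le _)
    | succ k ih =>
      intro hk c hc
      set j : Fin m := ⟨k, hk⟩ with hj
      have hd : ∀ t : ℝ, HasDerivAt
          (fun t : ℝ => Ep (G δ (Function.update c j.castSucc t) f ∅)) 0 t := by
        intro t
        have h1 := hasDeriv_c δ c f j.castSucc t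
        have h2 : ∑ i : I l, Ep (Ap δ j.castSucc i * Bp δ j.castSucc i *
            G δ (Function.update c j.castSucc t) f {(j.castSucc, i)}) = 0 := by
          refine Finset.sum_eq_zero fun i _ => ?_
          refine deriv_zero δ _ f j (fun r hr => ?_) i
          rw [Function.update_of_ne hr.ne']
          refine hc r ?_
          have h3 : (j.castSucc : Fin (m + 1)).val < r.val := hr
          exact h3
        rwa [h2] at h1
      have h4 := is_const_of_deriv_eq_zero (fun t => (hd t).differentiableAt)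
        (fun t => (hd t).deriv) (c j.castSucc) 0
      simp only [Function.update_eq_self] at h4
      rw [h4]
      refine ih (Nat.le_of_succ_le hk) _ fun r hr => ?_
      by_cases h5 : r = j.castSucc
      · rw [h5, Function.update_self]
      · rw [Function.update_of_ne h5]
        refine hc r ?_
        have h6 : r.val ≠ k := fun h => h5 (Fin.ext h)
        omega
  refine key m le_rfl c fun r hr => ?_
  have h7 : r = Fin.last m := Fin.ext (le_antisymm (Nat.lt_succ_iff.1 r.2) hr)
  rw [h7, hc]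

end P362.Law
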