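import Vale.Agent.Lib.P362.Law.Path
import Vale.Agent.Lib.P362.Law.Van
import Vale.Agent.Lib.P362.Law.DDB
import Vale.Agent.Lib.P362.Law.TailC

/-! P362 Law/Chain: the interpolation bound. -/

open MeasureTheory ProbabilityTheory MvPolynomial

namespace P362.Law

variable {m l : ℕ}

private theorem chain_Ep (δ : ℝ) (c : Fin (m + 1) → ℝ) (f : (VV m l → Bool) → ℝ)
    (S : Finset (VV m l)) : Ep (G δ c f S) = ∫ g, DD f S (Zv δ c g) ∂(gam m l) := by
  unfold Ep
  exact integral_congr_ae (Filter.Eventually.of_forall fun g => eval_G δ c f S g)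

private theorem chain_int (δ : ℝ) (c : Fin (m + 1) → ℝ) (f : (VV m l → Bool) → ℝ)
    (S : Finset (VV m l)) : Integrable (fun g => DD f S (Zv δ c g)) (gam m l) := by
  have h := integrable_eval (G δ c f S)
  refine h.congr (Filter.Eventually.of_forall fun g => eval_G δ c f S g)

private theorem chain_prod (i : Fin (m + 1) → I l) :
    ∏ j : Fin m, Hm (i j.castSucc) (i j.succ) =
      (1 / Real.sqrt (2 ^ l)) ^ m *
        ∏ j : Fin m, (had (i j.castSucc) (i j.succ) : ℝ) := by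
  unfold Hm
  simp only [div_eq_mul_inv, Finset.prod_mul_distrib, Finset.prod_const, Finset.card_univ,
    Fintype.card_fin, one_mul]
  ring

private theorem had_abs (i i' : I l) : |(had i i' : ℝ)| ≤ 1 := by
  unfold had
  push_cast
  rw [Finset.abs_prod]
  refine Finset.prod_le_one (fun _ _ => abs_nonneg _) fun c _ => ?_
  split_ifs <;> simp

private theorem chain_bad (δ : ℝ) (c : Fin (m + 1) → ℝ) (f : (VV m l → Bool) → ℝ)
    (hf : ∀ x, |f x| ≤ 1) (g : GV m l → ℝ) :
    |∑ i : Fin (m + 1) → I l, (∏ j : Fin m, (had (i j.castSucc) (i j.succ) : ℝ)) *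
        DD f (tv i) (Zv δ c g)| ≤ (2 ^ l) ^ (m + 1) * W δ c g := by
  refine (Finset.abs_sum_le_sum_abs _ _).trans ?_
  have h1 : ∀ i : Fin (m + 1) → I l,
      |(∏ j : Fin m, (had (i j.castSucc) (i j.succ) : ℝ)) * DD f (tv i) (Zv δ c g)|
        ≤ W δ c g := by
    intro i
    rw [abs_mul, Finset.abs_prod]
    have h2 := DD_abs f 1 hf (tv i) (Zv δ c g)
    rw [one_mul] at h2
    have h3 : ∏ j : Fin m, |(had (i j.castSucc) (i j.succ) : ℝ)| ≤ 1 :=
      Finset.prod_le_one (fun _ _ => abs_nonneg _) fun j _ => had_abs _ _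
    calc _ ≤ 1 * |DD f (tv i) (Zv δ c g)| := mul_le_mul_of_nonneg_right h3 (abs_nonneg _)
      _ ≤ W δ c g := by rw [one_mul]; exact h2
  refine (Finset.sum_le_sum fun i _ => h1 i).trans ?_
  rw [Finset.sum_const, Finset.card_univ, nsmul_eq_mul]
  have h4 : (Fintype.card (Fin (m + 1) → I l) : ℝ) = (2 ^ l) ^ (m + 1) := by
    simp [I]
  rw [h4]

private theorem chain_sum (hm : 1 ≤ m) (δ : ℝ) (c : Fin (m + 1) → ℝ)
    (hc : ∀ j, |c j| ≤ 1)
    (f : (VV m l → Bool) → ℝ) (hf : ∀ x, |f x| ≤ 1) (R τ : ℝ) (hR : 0 ≤ R)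
    (h1 : ∀ z : VV m l → ℝ, (∀ v, |z v| ≤ 1 / 2) →
      |∑ i : Fin (m + 1) → I l, (∏ j : Fin m, (had (i j.castSucc) (i j.succ) : ℝ)) *
        DD f (tv i) z| ≤ R)
    (h2 : ∫ g, iBad δ g * W δ c g ∂(gam m l) ≤ τ) :
    |∑ i : Fin (m + 1) → I l, (∏ j : Fin m, (had (i j.castSucc) (i j.succ) : ℝ)) *
        Ep (G δ c f (tv i))| ≤ R + (2 ^ l) ^ (m + 1) * τ := by
  have : IsProbabilityMeasure (gam m l) := by unfold gam; infer_instance
  have e1 : ∑ i : Fin (m + 1) → I l, (∏ j : Fin m, (had (i j.castSucc) (i j.succ) : ℝ)) *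
        Ep (G δ c f (tv i)) = ∫ g, ∑ i : Fin (m + 1) → I l,
          (∏ j : Fin m, (had (i j.castSucc) (i j.succ) : ℝ)) *
            DD f (tv i) (Zv δ c g) ∂(gam m l) := by
    rw [integral_finsetSum _ fun i _ => (chain_int δ c f (tv i)).const_mul _]
    refine Finset.sum_congr rfl fun i _ => ?_
    rw [integral_const_mul, chain_Ep]
  rw [e1]
  have hBW := integrable_BW (m := m) (l := l) δ c hc
  have hint : Integrable (fun g => R + (2 ^ l) ^ (m + 1) * (iBad δ g * W δ c g)) (gam m l) :=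
    (integrable_const R).add (hBW.const_mul _)
  rw [← Real.norm_eq_abs]
  refine (norm_integral_le_of_norm_le hint (Filter.Eventually.of_forall fun g => ?_)).trans ?_
  · rw [Real.norm_eq_abs]
    by_cases hg : Bad δ g
    · have hi : iBad δ g = 1 := by simp [iBad, hg]
      rw [hi, one_mul]
      exact (chain_bad δ c f hf g).trans (by linarith)
    · have hi : iBad δ g = 0 := by simp [iBad, hg]
      rw [hi, zero_mul, mul_zero, add_zero]
      exact h1 _ fun v => good_Zv δ c hc hm g hg v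
  · rw [integral_add (integrable_const R) (hBW.const_mul _), integral_const_mul]
    simp only [integral_const, probReal_univ, smul_eq_mul, one_mul]
    have : (0 : ℝ) ≤ (2 ^ l) ^ (m + 1) := by positivity
    nlinarith [mul_le_mul_of_nonneg_left h2 this]

/-- mean value theorem for `t ↦ E f(Z_{c, c_m = t})` between `0` and `c m`, `hasDeriv_c` (block
`Fin.last m`, where `Bp = 1`), `path_sum`, `Ep_last_zero` -/
theorem chain_bound (hm : 1 ≤ m) (δ : ℝ) (hδ : 0 ≤ δ) (c : Fin (m + 1) → ℝ)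
    (hc : ∀ j, |c j| ≤ 1)
    (f : (VV m l → Bool) → ℝ) (hf : ∀ x, |f x| ≤ 1) (R τ : ℝ) (hR : 0 ≤ R)
    (h1 : ∀ z : VV m l → ℝ, (∀ v, |z v| ≤ 1 / 2) →
      |∑ i : Fin (m + 1) → I l, (∏ j : Fin m, (had (i j.castSucc) (i j.succ) : ℝ)) *
        DD f (tv i) z| ≤ R)
    (h2 : ∀ c' : Fin (m + 1) → ℝ, (∀ j, |c' j| ≤ 1) →
      ∫ g, iBad δ g * W δ c' g ∂(gam m l) ≤ τ) :
    |(∫ g, DD f ∅ (Zv δ c g) ∂(gam m l)) - DD f ∅ 0| ≤
      δ ^ (2 * m) * (1 / Real.sqrt (2 ^ l)) ^ m * (R + (2 ^ l) ^ (m + 1) * τ) := by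
  set B : ℝ := δ ^ (2 * m) * (1 / Real.sqrt (2 ^ l)) ^ m * (R + (2 ^ l) ^ (m + 1) * τ) with hB
  have hderiv : ∀ t ∈ Set.Icc (-1 : ℝ) 1, HasDerivWithinAt
      (fun t : ℝ => Ep (G δ (Function.update c (Fin.last m) t) f ∅))
      (∑ i : I l, Ep (Ap δ (Fin.last m) i * Bp δ (Fin.last m) i *
        G δ (Function.update c (Fin.last m) t) f {(Fin.last m, i)})) (Set.Icc (-1) 1) t :=
    fun t _ => (hasDeriv_c δ c f (Fin.last m) t).hasDerivWithinAt
  have hbound : ∀ t ∈ Set.Icc (-1 : ℝ) 1,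
      ‖∑ i : I l, Ep (Ap δ (Fin.last m) i * Bp δ (Fin.last m) i *
        G δ (Function.update c (Fin.last m) t) f {(Fin.last m, i)})‖ ≤ B := by
    intro t ht
    have hct : ∀ j, |Function.update c (Fin.last m) t j| ≤ 1 := by
      intro j
      by_cases hj : j = Fin.last m
      · rw [hj, Function.update_self]
        exact abs_le.2 ht
      · rw [Function.update_of_ne hj]
        exact hc j
    have e1 : ∑ i : I l, Ep (Ap δ (Fin.last m) i * Bp δ (Fin.last m) i *
        G δ (Function.update c (Fin.last m) t) f {(Fin.last m, i)})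
        = ∑ i : I l, Ep (Ap δ (Fin.last m) i *
          G δ (Function.update c (Fin.last m) t) f {(Fin.last m, i)}) := by
      refine Finset.sum_congr rfl fun i _ => ?_
      have : Bp (m := m) (l := l) δ (Fin.last m) i = 1 := by
        unfold Bp
        rw [Fin.lastCases_last]
      rw [this, mul_one]
    rw [e1, path_sum]
    have e2 : ∑ i : Fin (m + 1) → I l, (∏ j : Fin m, Hm (i j.castSucc) (i j.succ)) *
          Ep (G δ (Function.update c (Fin.last m) t) f (tv i))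
        = (1 / Real.sqrt (2 ^ l)) ^ m * ∑ i : Fin (m + 1) → I l,
          (∏ j : Fin m, (had (i j.castSucc) (i j.succ) : ℝ)) *
            Ep (G δ (Function.update c (Fin.last m) t) f (tv i)) := by
      rw [Finset.mul_sum]
      refine Finset.sum_congr rfl fun i _ => ?_
      rw [chain_prod, mul_assoc]
    rw [e2, Real.norm_eq_abs, abs_mul, abs_mul, abs_mul]
    have g1 := chain_sum hm δ (Function.update c (Fin.last m) t) hct f hf R τ hR h1 (h2 _ hct)
    have g2 : |(δ ^ 2) ^ m| = δ ^ (2 * m) := by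
      rw [← pow_mul, abs_of_nonneg (pow_nonneg hδ _)]
    have g3 : |∏ j : Fin m, Function.update c (Fin.last m) t j.castSucc| ≤ 1 := by
      rw [Finset.abs_prod]
      exact Finset.prod_le_one (fun _ _ => abs_nonneg _) fun j _ => hct _
    have g4 : |(1 / Real.sqrt (2 ^ l)) ^ m| = (1 / Real.sqrt (2 ^ l)) ^ m :=
      abs_of_nonneg (by positivity)
    rw [g2, g4, hB]
    have p1 : (0 : ℝ) ≤ δ ^ (2 * m) := pow_nonneg hδ _
    have p2 : (0 : ℝ) ≤ (1 / Real.sqrt (2 ^ l)) ^ m := by positivity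
    calc δ ^ (2 * m) * |∏ j : Fin m, Function.update c (Fin.last m) t j.castSucc| *
          ((1 / Real.sqrt (2 ^ l)) ^ m * |∑ i : Fin (m + 1) → I l,
          (∏ j : Fin m, (had (i j.castSucc) (i j.succ) : ℝ)) *
            Ep (G δ (Function.update c (Fin.last m) t) f (tv i))|)
        ≤ δ ^ (2 * m) * 1 * ((1 / Real.sqrt (2 ^ l)) ^ m * (R + (2 ^ l) ^ (m + 1) * τ)) := by
          gcongr
      _ = _ := by ring
  have hmv := Convex.norm_image_sub_le_of_norm_hasDerivWithin_le hderiv hbound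
    (convex_Icc (-1 : ℝ) 1) (x := 0) (y := c (Fin.last m)) ⟨by norm_num, by norm_num⟩
    (abs_le.1 (hc (Fin.last m)))
  simp only [Function.update_eq_self] at hmv
  have e0 : Ep (G δ (Function.update c (Fin.last m) 0) f ∅) = DD f ∅ 0 :=
    Ep_last_zero δ _ f (Function.update_self _ _ _)
  rw [e0, chain_Ep, sub_zero, Real.norm_eq_abs, Real.norm_eq_abs] at hmv
  have hB0 : 0 ≤ B := (norm_nonneg _).trans (hbound 0 ⟨by norm_num, by norm_num⟩)
  calc _ ≤ B * |c (Fin.last m)| := hmv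
    _ ≤ B * 1 := mul_le_mul_of_nonneg_left (hc _) hB0
    _ = B := mul_one B

end P362.Law
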