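import Vale.Agent.Lib.P362.Defs

/-! P362, part Law: basic definitions. -/

open MeasureTheory ProbabilityTheory

namespace P362.Law

/-- real sign of a bit -/
noncomputable def sg (b : Bool) : ℝ := if b then -1 else 1

/-- `D_S f` at `z`, where `f` is identified with its multilinear extension -/
noncomputable def DD {V : Type} [Fintype V] [DecidableEq V] (f : (V → Bool) → ℝ)
    (S : Finset V) (z : V → ℝ) : ℝ :=
  ∑ x : V → Bool, f x * ∏ v, (if v ∈ S then sg (x v) / 2 else (1 + sg (x v) * z v) / 2)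

/-- index set of the Gaussians -/
abbrev GV (m l : ℕ) := Fin m × I l

/-- index set of the input bits -/
abbrev VV (m l : ℕ) := Fin (m + 1) × I l

/-- standard Gaussian measure -/
noncomputable def gam (m l : ℕ) : Measure (GV m l → ℝ) :=
  Measure.pi (fun _ => gaussianReal 0 1)

/-- even moments: `mom p = (2p-1)!!` -/
noncomputable def mom (p : ℕ) : ℝ := ∫ x, x ^ (2 * p) ∂(gaussianReal 0 1)

/-- Gaussian expectation of a polynomial -/
noncomputable def Ep {m l : ℕ} (P : MvPolynomial (GV m l) ℝ) : ℝ :=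
  ∫ g, MvPolynomial.eval g P ∂(gam m l)

/-- normalized Hadamard matrix -/
noncomputable def Hm {l : ℕ} (i i' : I l) : ℝ := (had i i' : ℝ) / Real.sqrt (2 ^ l)

/-- the polynomial `(H g_j)_i` -/
noncomputable def Yp {m l : ℕ} (u : GV m l) : MvPolynomial (GV m l) ℝ :=
  ∑ i' : I l, MvPolynomial.C (Hm u.2 i') * MvPolynomial.X (u.1, i')

/-- left factor of block `j` -/
noncomputable def Ap {m l : ℕ} (δ : ℝ) (j : Fin (m + 1)) (i : I l) : MvPolynomial (GV m l) ℝ :=
  Fin.cases (motive := fun _ => MvPolynomial (GV m l) ℝ) 1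
    (fun r => MvPolynomial.C δ * Yp (r, i)) j

/-- right factor of block `j` -/
noncomputable def Bp {m l : ℕ} (δ : ℝ) (j : Fin (m + 1)) (i : I l) : MvPolynomial (GV m l) ℝ :=
  Fin.lastCases (motive := fun _ => MvPolynomial (GV m l) ℝ) 1
    (fun r => MvPolynomial.C δ * MvPolynomial.X (r, i)) j

/-- the means as polynomials in the Gaussians -/
noncomputable def Zp {m l : ℕ} (δ : ℝ) (c : Fin (m + 1) → ℝ) (v : VV m l) :
    MvPolynomial (GV m l) ℝ :=
  MvPolynomial.C (c v.1) * (Ap δ v.1 v.2 * Bp δ v.1 v.2)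

/-- `D_S f` at the point `Zp` -/
noncomputable def G {m l : ℕ} (δ : ℝ) (c : Fin (m + 1) → ℝ) (f : (VV m l → Bool) → ℝ)
    (S : Finset (VV m l)) : MvPolynomial (GV m l) ℝ :=
  ∑ x : VV m l → Bool, MvPolynomial.C (f x) *
    ∏ v, (if v ∈ S then MvPolynomial.C (sg (x v) / 2)
      else MvPolynomial.C (1 / 2) + MvPolynomial.C (sg (x v) / 2) * Zp δ c v)

/-- value of `Zp` -/
noncomputable def Zv {m l : ℕ} (δ : ℝ) (c : Fin (m + 1) → ℝ) (g : GV m l → ℝ) (v : VV m l) : ℝ :=
  MvPolynomial.eval g (Zp δ c v)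

/-- value of `Yp` -/
noncomputable def Yv {m l : ℕ} (g : GV m l → ℝ) (u : GV m l) : ℝ :=
  ∑ i' : I l, Hm u.2 i' * g (u.1, i')

/-- the transversal of a path -/
def tv {m l : ℕ} (i : Fin (m + 1) → I l) : Finset (VV m l) :=
  Finset.univ.image (fun j => (j, i j))

/-- the bad event -/
def Bad {m l : ℕ} (δ : ℝ) (g : GV m l → ℝ) : Prop :=
  ∃ u, 1 / 2 < |δ * g u| ∨ 1 / 2 < |δ * Yv g u|

/-- indicator of acceptance -/
noncomputable def ind {V : Type} (T : DT V Bool) (x : V → Bool) : ℝ :=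
  if T.eval x = true then 1 else 0

/-- size of the multilinear extensions at the point `Zv` -/
noncomputable def W {m l : ℕ} (δ : ℝ) (c : Fin (m + 1) → ℝ) (g : GV m l → ℝ) : ℝ :=
  ∏ v, max 1 |Zv δ c g v|

open Classical in
/-- indicator of the bad event -/
noncomputable def iBad {m l : ℕ} (δ : ℝ) (g : GV m l → ℝ) : ℝ := if Bad δ g then 1 else 0

/-- clipping -/
noncomputable def clip (z : ℝ) : ℝ := max (-(1 / 2)) (min (1 / 2) z)

end P362.Law
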