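import Vale.Agent.Lib.P362.Law.Mom2

/-! P362 Law/DerivT: derivative in one of the scale factors. -/

open MvPolynomial

namespace P362.Law

variable {m l : ℕ}

/-- product rule for a linear functional of a product of affine functions of `t` -/
theorem hasDeriv_prod {A ι : Type*} [CommRing A] [Algebra ℝ A] [DecidableEq ι] (L : A →ₗ[ℝ] ℝ)
    (s : Finset ι) (a b : ι → A) (e : A) (t : ℝ) :
    HasDerivAt (fun t : ℝ => L (e * ∏ v ∈ s, (a v + t • b v)))
      (∑ v ∈ s, L (e * (b v * ∏ w ∈ s.erase v, (a w + t • b w)))) t := by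
  have hsm : ∀ (r : ℝ) (x : A), r * L x = L (r • x) := fun r x => by
    rw [map_smul, smul_eq_mul]
  induction s using Finset.induction_on generalizing e with
  | empty => simpa using hasDerivAt_const t (L e)
  | insert v0 s hv ih =>
    have h1 := ih (e * a v0)
    have h2 := (hasDerivAt_id t).mul (ih (e * b v0))
    have h3 := h1.add h2
    refine (h3.congr_deriv ?_).congr_of_eventuallyEq (Filter.Eventually.of_forall fun t => ?_)
    · rw [Finset.sum_insert hv, Finset.erase_insert hv]
      have h4 : ∀ v ∈ s, L (e * (b v * ∏ w ∈ (insert v0 s).erase v, (a w + t • b w))) =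
          L (e * a v0 * (b v * ∏ w ∈ s.erase v, (a w + t • b w))) +
            t * L (e * b v0 * (b v * ∏ w ∈ s.erase v, (a w + t • b w))) := by
        intro v hvs
        have hne : v0 ≠ v := fun h => hv (h ▸ hvs)
        rw [Finset.erase_insert_of_ne hne,
          Finset.prod_insert (fun h => hv (Finset.mem_of_mem_erase h)), hsm, ← map_add]
        congr 1
        simp only [Algebra.smul_def]
        ring
      rw [Finset.sum_congr rfl h4, Finset.sum_add_distrib, ← Finset.mul_sum]
      simp only [id, mul_assoc, one_mul]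
      ring
    · change L (e * ∏ v ∈ insert v0 s, (a v + t • b v)) =
        L (e * a v0 * ∏ v ∈ s, (a v + t • b v)) + t * L (e * b v0 * ∏ v ∈ s, (a v + t • b v))
      rw [Finset.prod_insert hv, hsm, ← map_add]
      congr 1
      simp only [Algebra.smul_def]
      ring

/-- `Ep` as a linear map -/
noncomputable def EpL (m l : ℕ) : MvPolynomial (GV m l) ℝ →ₗ[ℝ] ℝ where
  toFun := Ep
  map_add' := Ep_add
  map_smul' a P := by
    rw [MvPolynomial.smul_eq_C_mul, Ep_C_mul]
    rfl

theorem hasDeriv_c (δ : ℝ) (c : Fin (m + 1) → ℝ) (f : (VV m l → Bool) → ℝ)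
    (j : Fin (m + 1)) (t : ℝ) :
    HasDerivAt (fun t : ℝ => Ep (G δ (Function.update c j t) f ∅))
      (∑ i : I l, Ep (Ap δ j i * Bp δ j i * G δ (Function.update c j t) f {(j, i)})) t := by
  set a : (VV m l → Bool) → VV m l → MvPolynomial (GV m l) ℝ := fun x v =>
    C (1 / 2) + if v.1 = j then 0 else C (sg (x v) / 2) * (C (c v.1) * (Ap δ v.1 v.2 * Bp δ v.1 v.2))
    with ha
  set b : (VV m l → Bool) → VV m l → MvPolynomial (GV m l) ℝ := fun x v =>
    if v.1 = j then C (sg (x v) / 2) * (Ap δ v.1 v.2 * Bp δ v.1 v.2) else 0 with hb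
  have hab : ∀ (t : ℝ) (x : VV m l → Bool) (v : VV m l),
      C (1 / 2) + C (sg (x v) / 2) * Zp δ (Function.update c j t) v = a x v + t • b x v := by
    intro t x v
    rw [ha, hb]
    unfold Zp
    by_cases h : v.1 = j
    · simp only [h, if_true, Function.update_self, MvPolynomial.smul_eq_C_mul]
      ring
    · simp only [h, if_false, Function.update_of_ne h, smul_zero]
      ring
  have h1 : ∀ x : VV m l → Bool, HasDerivAt
      (fun t : ℝ => EpL m l (C (f x) * ∏ v, (a x v + t • b x v)))
      (∑ v, EpL m l (C (f x) * (b x v * ∏ w ∈ Finset.univ.erase v, (a x w + t • b x w)))) t :=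
    fun x => hasDeriv_prod (EpL m l) Finset.univ (a x) (b x) (C (f x)) t
  have h2 := HasDerivAt.fun_sum (u := Finset.univ) fun x _ => h1 x
  refine (h2.congr_deriv ?_).congr_of_eventuallyEq (Filter.Eventually.of_forall fun t => ?_)
  · have h3 : ∀ x : VV m l → Bool,
        (∑ v, EpL m l (C (f x) * (b x v * ∏ w ∈ Finset.univ.erase v, (a x w + t • b x w)))) =
        ∑ i : I l, Ep (Ap δ j i * Bp δ j i * (C (f x) * ∏ v : VV m l,
          (if v ∈ ({(j, i)} : Finset (VV m l)) then C (sg (x v) / 2)
            else C (1 / 2) + C (sg (x v) / 2) * Zp δ (Function.update c j t) v))) := by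
      intro x
      rw [Fintype.sum_prod_type]
      rw [Finset.sum_eq_single j]
      · refine Finset.sum_congr rfl fun i _ => ?_
        change Ep _ = Ep _
        congr 1
        rw [← Finset.mul_prod_erase Finset.univ _ (Finset.mem_univ ((j, i) : VV m l)),
          if_pos (Finset.mem_singleton_self _)]
        have h4 : ∏ v ∈ Finset.univ.erase ((j, i) : VV m l),
            (if v ∈ ({(j, i)} : Finset (VV m l)) then C (sg (x v) / 2)
              else C (1 / 2) + C (sg (x v) / 2) * Zp δ (Function.update c j t) v) =
            ∏ w ∈ Finset.univ.erase ((j, i) : VV m l), (a x w + t • b x w) := by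
          refine Finset.prod_congr rfl fun v hv => ?_
          rw [if_neg (fun h => (Finset.ne_of_mem_erase hv) (Finset.mem_singleton.1 h)), hab]
        rw [h4]
        simp only [hb, if_true]
        ring
      · intro k _ hk
        refine Finset.sum_eq_zero fun i _ => ?_
        have h5 : b x (k, i) = 0 := by
          simp only [hb]
          rw [if_neg hk]
        rw [h5, zero_mul, mul_zero, map_zero]
      · intro h
        exact absurd (Finset.mem_univ _) h
    rw [Finset.sum_congr rfl fun x _ => h3 x, Finset.sum_comm]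
    refine Finset.sum_congr rfl fun i _ => ?_
    rw [← Ep_sum, ← Finset.mul_sum]
    rfl
  · change Ep (G δ (Function.update c j t) f ∅) = _
    unfold G
    rw [Ep_sum]
    refine Finset.sum_congr rfl fun x _ => ?_
    change _ = Ep _
    congr 2
    refine Finset.prod_congr rfl fun v _ => ?_
    rw [if_neg (Finset.notMem_empty v), hab]

end P362.Law
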