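import Vale.Agent.Lib.P362.Law.Had
import Vale.Agent.Lib.P362.F.Norm

/-! P362 Law/ForrD: derivatives of Forrelation. -/

namespace P362.Law

variable {m l : ℕ}

theorem ForrD_sgn (b : Bool) : ((sgn b : ℤ) : ℝ) = sg b := by
  cases b <;> simp [sgn, sg]

theorem ForrD_inj (i : Fin (m + 1) → I l) : Function.Injective (fun j => (j, i j)) :=
  fun _ _ h => (Prod.mk.inj h).1

theorem ForrD_mem (i : Fin (m + 1) → I l) (j : Fin (m + 1)) (k : I l) :
    (j, k) ∈ tv i ↔ i j = k := by
  unfold tv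
  rw [Finset.mem_image]
  constructor
  · rintro ⟨j', -, h⟩
    have h1 := (Prod.mk.inj h).1
    have h2 := (Prod.mk.inj h).2
    subst h1
    exact h2
  · intro h
    exact ⟨j, Finset.mem_univ _, by rw [h]⟩

/-- `D_S` of a character -/
theorem ForrD_char (i : Fin (m + 1) → I l) (S : Finset (VV m l)) (z : VV m l → ℝ) :
    DD (fun x => ∏ j, ((sgn (x (j, i j)) : ℤ) : ℝ)) S z =
      ∏ v, (if v ∈ S then (if v ∈ tv i then (1 : ℝ) else 0) else (if v ∈ tv i then z v else 1)) := by
  unfold DD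
  have h1 : ∀ x : VV m l → Bool, ∏ j, ((sgn (x (j, i j)) : ℤ) : ℝ)
      = ∏ v, (if v ∈ tv i then sg (x v) else 1) := by
    intro x
    rw [Finset.prod_ite_mem, Finset.univ_inter]
    unfold tv
    rw [Finset.prod_image (fun _ _ _ _ h => ForrD_inj i h)]
    exact Finset.prod_congr rfl fun j _ => ForrD_sgn _
  have h2 : ∀ x : VV m l → Bool, (∏ j, ((sgn (x (j, i j)) : ℤ) : ℝ))
      * ∏ v, (if v ∈ S then sg (x v) / 2 else (1 + sg (x v) * z v) / 2)
      = ∏ v, (fun (v : VV m l) (b : Bool) => (if v ∈ tv i then sg b else 1)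
        * (if v ∈ S then sg b / 2 else (1 + sg b * z v) / 2)) v (x v) := by
    intro x
    rw [h1, ← Finset.prod_mul_distrib]
  rw [Finset.sum_congr rfl (fun x _ => h2 x)]
  have h3 := Finset.prod_univ_sum (fun _ : VV m l => (Finset.univ : Finset Bool))
    (fun (v : VV m l) (b : Bool) => (if v ∈ tv i then sg b else 1)
        * (if v ∈ S then sg b / 2 else (1 + sg b * z v) / 2))
  rw [Fintype.piFinset_univ] at h3
  rw [← h3]
  refine Finset.prod_congr rfl fun v _ => ?_
  rw [Fintype.sum_bool]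
  by_cases hS : v ∈ S <;> by_cases ht : v ∈ tv i
  · simp only [if_pos hS, if_pos ht, sg]
    norm_num
  · simp only [if_pos hS, if_neg ht, sg]
    norm_num
  · simp only [if_neg hS, if_pos ht, sg]
    norm_num
    ring
  · simp only [if_neg hS, if_neg ht, sg]
    norm_num
    ring

/-- `D_S` of the Forrelation in terms of characters -/
theorem ForrD_expand (S : Finset (VV m l)) (z : VV m l → ℝ) :
    DD (forr m l) S z = (∑ i : Fin (m + 1) → I l,
      DD (fun x => ∏ j, ((sgn (x (j, i j)) : ℤ) : ℝ)) S z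
        * ∏ j : Fin m, (had (i j.castSucc) (i j.succ) : ℝ)) / (Real.sqrt (2 ^ l)) ^ (m + 2) := by
  unfold DD
  rw [Finset.sum_div]
  simp_rw [Finset.sum_mul, Finset.sum_div]
  rw [Finset.sum_comm]
  refine Finset.sum_congr rfl fun x _ => ?_
  unfold forr forrZ
  push_cast
  rw [Finset.sum_div, Finset.sum_mul]
  refine Finset.sum_congr rfl fun i _ => ?_
  ring

theorem DD_forr (i : Fin (m + 1) → I l) (z : VV m l → ℝ) :
    DD (forr m l) (tv i) z =
      (∏ j : Fin m, (had (i j.castSucc) (i j.succ) : ℝ)) / (Real.sqrt (2 ^ l)) ^ (m + 2) := by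
  rw [ForrD_expand, Finset.sum_eq_single i]
  · rw [ForrD_char]
    have h : ∏ v, (if v ∈ tv i then (if v ∈ tv i then (1 : ℝ) else 0)
        else (if v ∈ tv i then z v else 1)) = 1 := by
      refine Finset.prod_eq_one fun v _ => ?_
      by_cases ht : v ∈ tv i
      · rw [if_pos ht, if_pos ht]
      · rw [if_neg ht, if_neg ht]
    rw [h, one_mul]
  · intro i' _ hi'
    obtain ⟨j, hj⟩ := Function.ne_iff.1 hi'
    have h1 : (j, i j) ∈ tv i := (ForrD_mem i j (i j)).2 rfl
    have h2 : (j, i j) ∉ tv i' := fun h => hj ((ForrD_mem i' j (i j)).1 h)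
    rw [ForrD_char, Finset.prod_eq_zero (Finset.mem_univ (j, i j)), zero_mul]
    rw [if_pos h1, if_neg h2]
  · intro h
    exact absurd (Finset.mem_univ i) h

theorem DD_forr_zero : DD (forr m l) ∅ 0 = 0 := by
  rw [ForrD_expand, Finset.sum_eq_zero, zero_div]
  intro i _
  have h1 : ((0 : Fin (m + 1)), i 0) ∈ tv i := (ForrD_mem i 0 (i 0)).2 rfl
  rw [ForrD_char, Finset.prod_eq_zero (Finset.mem_univ ((0 : Fin (m + 1)), i 0)), zero_mul]
  rw [if_neg (Finset.notMem_empty _), if_pos h1]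
  rfl

theorem forr_abs (x : VV m l → Bool) : |forr m l x| ≤ (2 ^ l) ^ (m + 1) := by
  refine (forr_abs_le m l x).trans ?_
  exact one_le_pow₀ (one_le_pow₀ one_le_two)

end P362.Law
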