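import Vale.Agent.Lib.P362.Law.Defs

/-! P362 Law/Had: the Hadamard matrix. -/

namespace P362.Law

variable {l : ℕ}

theorem had_symm (i j : I l) : had i j = had j i := by
  unfold had
  refine Finset.prod_congr rfl fun c _ => ?_
  rw [Bool.and_comm]

theorem had_mul_self (i j : I l) : had i j * had i j = 1 := by
  unfold had
  rw [← Finset.prod_mul_distrib]
  refine Finset.prod_eq_one fun c _ => ?_
  split_ifs <;> norm_num

theorem Hm_symm (i j : I l) : Hm i j = Hm j i := by
  unfold Hm
  rw [had_symm]

private theorem had_sum (i j : I l) :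
    ∑ i' : I l, had i i' * had j i' = if i = j then 2 ^ l else 0 := by
  have h1 : ∑ i' : I l, had i i' * had j i' =
      ∏ c : Fin l, ∑ b : Bool, ((if i c && b then (-1 : ℤ) else 1) *
        (if j c && b then (-1 : ℤ) else 1)) := by
    rw [Finset.prod_univ_sum, Fintype.piFinset_univ]
    refine Finset.sum_congr rfl fun i' _ => ?_
    unfold had
    rw [← Finset.prod_mul_distrib]
  have h2 : ∀ c : Fin l, ∑ b : Bool, ((if i c && b then (-1 : ℤ) else 1) *
      (if j c && b then (-1 : ℤ) else 1)) = if i c = j c then 2 else 0 := by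
    intro c
    rw [Fintype.sum_bool]
    cases i c <;> cases j c <;> simp
  rw [h1, Finset.prod_congr rfl (fun c _ => h2 c)]
  split_ifs with h
  · subst h
    simp
  · obtain ⟨c, hc⟩ := Function.ne_iff.1 h
    exact Finset.prod_eq_zero (Finset.mem_univ c) (if_neg hc)

theorem Hm_orth (i j : I l) : ∑ i' : I l, Hm i i' * Hm j i' = if i = j then 1 else 0 := by
  have hs : Real.sqrt ((2 : ℝ) ^ l) * Real.sqrt ((2 : ℝ) ^ l) = 2 ^ l :=
    Real.mul_self_sqrt (by positivity)
  have h1 : ∀ i' : I l, Hm i i' * Hm j i' = ((had i i' * had j i' : ℤ) : ℝ) / 2 ^ l := by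
    intro i'
    unfold Hm
    rw [div_mul_div_comm, hs]
    push_cast
    rfl
  rw [Finset.sum_congr rfl (fun i' _ => h1 i'), ← Finset.sum_div, ← Int.cast_sum, had_sum]
  split_ifs with h
  · push_cast
    exact div_self (by positivity)
  · simp

theorem Hm_mul_had (i j : I l) : Hm i j * (had i j : ℝ) = 1 / Real.sqrt (2 ^ l) := by
  have h : (had i j : ℝ) * (had i j : ℝ) = 1 := by exact_mod_cast had_mul_self i j
  unfold Hm
  rw [div_mul_eq_mul_div, h]

end P362.Law
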