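import Vale.Agent.Lib.P362.Interface
import Vale.Agent.Lib.P362.Law.DDB
import Vale.Agent.Lib.P362.Law.TailC

/-! P362 Law/LawDef: the laws. -/

open MeasureTheory ProbabilityTheory MvPolynomial

namespace P362.Law

variable {m l : ℕ}

/-- bits with means `clip (Zv δ c g)` given `g` -/
noncomputable def lawR (δ : ℝ) (c : Fin (m + 1) → ℝ) (x : VV m l → Bool) : ℝ :=
  ∫ g, ∏ v, ((1 + sg (x v) * clip (Zv δ c g v)) / 2) ∂(gam m l)

private theorem clip_cont : Continuous clip := by
  unfold clip
  fun_prop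

private theorem sg_abs (b : Bool) : |sg b| = 1 := by
  cases b <;> simp [sg]

private theorem fac_bounds (b : Bool) (z : ℝ) (hz : |z| ≤ 1 / 2) :
    0 ≤ (1 + sg b * z) / 2 ∧ (1 + sg b * z) / 2 ≤ 1 := by
  have h1 := abs_le.mp hz
  cases b <;> simp only [sg, if_true, if_false, Bool.false_eq_true] <;> constructor <;> linarith

private theorem cont_fac (δ : ℝ) (c : Fin (m + 1) → ℝ) (x : VV m l → Bool) :
    Continuous (fun g : GV m l → ℝ => ∏ v, ((1 + sg (x v) * clip (Zv δ c g v)) / 2)) := by
  refine continuous_finsetProd _ (fun v _ => ?_)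
  have h1 : Continuous (fun g : GV m l → ℝ => clip (Zv δ c g v)) :=
    clip_cont.comp (continuous_Zv δ c v)
  fun_prop

instance gam_prob : IsProbabilityMeasure (gam m l) := by
  unfold gam
  infer_instance

private theorem int_fac (δ : ℝ) (c : Fin (m + 1) → ℝ) (x : VV m l → Bool) :
    Integrable (fun g : GV m l → ℝ => ∏ v, ((1 + sg (x v) * clip (Zv δ c g v)) / 2))
      (gam m l) := by
  refine Integrable.of_bound (cont_fac δ c x).aestronglyMeasurable 1 ?_
  refine Filter.Eventually.of_forall (fun g => ?_)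
  rw [Real.norm_eq_abs, abs_of_nonneg]
  · exact Finset.prod_le_one (fun v _ => (fac_bounds _ _ (clip_abs _)).1)
      (fun v _ => (fac_bounds _ _ (clip_abs _)).2)
  · exact Finset.prod_nonneg (fun v _ => (fac_bounds _ _ (clip_abs _)).1)

private theorem sum_prod_one (z : VV m l → ℝ) :
    ∑ x : VV m l → Bool, ∏ v, ((1 + sg (x v) * z v) / 2) = 1 := by
  have h := Finset.prod_univ_sum (t := fun _ : VV m l => (Finset.univ : Finset Bool))
    (f := fun v b => (1 + sg b * z v) / 2)
  rw [Fintype.piFinset_univ] at h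
  rw [← h]
  refine Finset.prod_eq_one (fun v _ => ?_)
  rw [Fintype.sum_bool]
  simp only [sg, if_true, if_false, Bool.false_eq_true]
  ring

theorem sum_lawR (δ : ℝ) (c : Fin (m + 1) → ℝ) (f : (VV m l → Bool) → ℝ) :
    ∑ x, lawR δ c x * f x = ∫ g, DD f ∅ (fun v => clip (Zv δ c g v)) ∂(gam m l) := by
  unfold lawR DD
  rw [integral_finsetSum]
  · refine Finset.sum_congr rfl (fun x _ => ?_)
    rw [mul_comm, ← integral_const_mul]
    refine integral_congr_ae (Filter.Eventually.of_forall (fun g => ?_))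
    simp only [Finset.notMem_empty, if_false]
  · intro x _
    have h := (int_fac δ c x).const_mul (f x)
    simpa only [Finset.notMem_empty, if_false] using h

theorem lawR_isLaw (δ : ℝ) (c : Fin (m + 1) → ℝ) : IsLaw (lawR (l := l) δ c) := by
  constructor
  · intro x
    unfold lawR
    exact integral_nonneg (fun g =>
      Finset.prod_nonneg (fun v _ => (fac_bounds _ _ (clip_abs _)).1))
  · unfold lawR
    rw [← integral_finsetSum _ (fun x _ => int_fac δ c x)]
    simp only [sum_prod_one, integral_const, probReal_univ, smul_eq_mul, mul_one]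

private theorem int_DD_clip (δ : ℝ) (c : Fin (m + 1) → ℝ) (f : (VV m l → Bool) → ℝ) :
    Integrable (fun g => DD f ∅ (fun v => clip (Zv δ c g v))) (gam m l) := by
  unfold DD
  refine integrable_finsetSum _ (fun x _ => ?_)
  have h := (int_fac δ c x).const_mul (f x)
  simpa only [Finset.notMem_empty, if_false] using h

private theorem int_DD (δ : ℝ) (c : Fin (m + 1) → ℝ) (f : (VV m l → Bool) → ℝ) :
    Integrable (fun g => DD f ∅ (Zv δ c g)) (gam m l) := by
  have h := integrable_eval (G δ c f (∅ : Finset (VV m l)))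
  simpa only [eval_G] using h

theorem clip_cmp (hm : 1 ≤ m) (δ : ℝ) (c : Fin (m + 1) → ℝ) (hc : ∀ j, |c j| ≤ 1)
    (f : (VV m l → Bool) → ℝ) (B : ℝ) (hf : ∀ x, |f x| ≤ B) :
    |(∫ g, DD f ∅ (fun v => clip (Zv δ c g v)) ∂(gam m l)) -
      ∫ g, DD f ∅ (Zv δ c g) ∂(gam m l)| ≤ 2 * B * ∫ g, iBad δ g * W δ c g ∂(gam m l) := by
  have hB : 0 ≤ B := (abs_nonneg _).trans (hf (fun _ => false))
  rw [← integral_sub (int_DD_clip δ c f) (int_DD δ c f), ← integral_const_mul]
  refine (abs_integral_le_integral_abs).trans ?_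
  refine integral_mono ((int_DD_clip δ c f).sub (int_DD δ c f)).abs
    ((integrable_BW δ c hc).const_mul _) (fun g => ?_)
  simp only []
  by_cases hg : Bad δ g
  · have h1 : |DD f ∅ (fun v => clip (Zv δ c g v))| ≤ B :=
      DD_abs_le f B hf _ (fun v => (clip_abs _).trans (by norm_num))
    have h2 : |DD f ∅ (Zv δ c g)| ≤ B * W δ c g := DD_abs f B hf ∅ _
    have h3 := one_le_W δ c g
    have h4 : iBad δ g = 1 := by unfold iBad; rw [if_pos hg]
    rw [h4, one_mul]
    refine (abs_sub _ _).trans ?_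
    nlinarith
  · have h1 : (fun v => clip (Zv δ c g v)) = Zv δ c g := by
      funext v
      exact clip_eq _ (good_Zv δ c hc hm g hg v)
    have h4 : iBad δ g = 0 := by unfold iBad; rw [if_neg hg]
    rw [h1, h4]
    simp

end P362.Law
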