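import Vale.Agent.Lib.P362.Law.Path
import Vale.Agent.Lib.P362.Law.Van
import Vale.Agent.Lib.P362.Law.ForrD

/-! P362 Law/Mean: the mean of Forrelation. -/

open MeasureTheory ProbabilityTheory MvPolynomial

namespace P362.Law

variable {m l : ℕ}

theorem mean_Ep_G (δ : ℝ) (c : Fin (m + 1) → ℝ) (f : (VV m l → Bool) → ℝ)
    (S : Finset (VV m l)) :
    Ep (G δ c f S) = ∫ g, DD f S (Zv δ c g) ∂(gam m l) := by
  unfold Ep
  simp only [eval_G]

theorem mean_gam_prob : IsProbabilityMeasure (gam m l) := by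
  unfold gam
  infer_instance

theorem mean_Ep_tv (δ : ℝ) (c : Fin (m + 1) → ℝ) (i : Fin (m + 1) → I l) :
    Ep (G δ c (forr m l) (tv i)) =
      (∏ j : Fin m, (had (i j.castSucc) (i j.succ) : ℝ)) / (Real.sqrt (2 ^ l)) ^ (m + 2) := by
  have : IsProbabilityMeasure (gam m l) := mean_gam_prob
  rw [mean_Ep_G]
  simp only [DD_forr]
  simp

theorem mean_path_const (δ : ℝ) (c : Fin (m + 1) → ℝ) :
    ∑ i : Fin (m + 1) → I l, (∏ j : Fin m, Hm (i j.castSucc) (i j.succ)) *
          Ep (G δ c (forr m l) (tv i)) = 1 := by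
  have h1 : ∀ i : Fin (m + 1) → I l, (∏ j : Fin m, Hm (i j.castSucc) (i j.succ)) *
      Ep (G δ c (forr m l) (tv i)) = 1 / ((2 : ℝ) ^ l) ^ (m + 1) := by
    intro i
    rw [mean_Ep_tv, ← mul_div_assoc, ← Finset.prod_mul_distrib]
    simp only [Hm_mul_had]
    rw [Finset.prod_const, Finset.card_univ, Fintype.card_fin]
    have hs : (Real.sqrt (2 ^ l)) * (Real.sqrt (2 ^ l)) = (2 : ℝ) ^ l :=
      Real.mul_self_sqrt (by positivity)
    have hpos : (Real.sqrt (2 ^ l)) ≠ 0 := (Real.sqrt_pos.mpr (by positivity)).ne'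
    have hpos2 : ((2 : ℝ) ^ l) ≠ 0 := by positivity
    generalize Real.sqrt (2 ^ l) = s at hs hpos
    rw [← hs, one_div, inv_pow, one_div, div_eq_mul_inv, ← mul_inv]
    congr 1
    ring
  simp only [h1]
  rw [Finset.sum_const, Finset.card_univ]
  have hc : Fintype.card (Fin (m + 1) → I l) = (2 ^ l) ^ (m + 1) := by
    simp [I]
  rw [hc]
  simp

theorem mean_Bp_last (δ : ℝ) (i : I l) : Bp (m := m) δ (Fin.last m) i = 1 := by
  unfold Bp
  simp

/-- the derivative in the last factor is constant by `path_sum`, `DD_forr`, `Hm_mul_had`; the value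
at zero is `0` by `Ep_last_zero`, `DD_forr_zero` -/
theorem mean_forr (δ : ℝ) (c : Fin (m + 1) → ℝ) :
    ∫ g, DD (forr m l) ∅ (Zv δ c g) ∂(gam m l) = δ ^ (2 * m) * ∏ j, c j := by
  rw [← mean_Ep_G]
  set K : ℝ := (δ ^ 2) ^ m * (∏ j : Fin m, c j.castSucc) with hK
  have hder : ∀ t : ℝ, HasDerivAt
      (fun t : ℝ => Ep (G δ (Function.update c (Fin.last m) t) (forr m l) ∅)) K t := by
    intro t
    have h := hasDeriv_c δ c (forr m l) (Fin.last m) t
    simp only [mean_Bp_last, mul_one] at h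
    rw [path_sum, mean_path_const, mul_one] at h
    have h2 : ∀ j : Fin m, Function.update c (Fin.last m) t j.castSucc = c j.castSucc := by
      intro j
      rw [Function.update_of_ne]
      exact (Fin.castSucc_lt_last j).ne
    simp only [h2] at h
    exact h
  have hder2 : ∀ t : ℝ, HasDerivAt
      (fun t : ℝ => Ep (G δ (Function.update c (Fin.last m) t) (forr m l) ∅) - K * t) 0 t := by
    intro t
    have h3 := (hder t).fun_sub ((hasDerivAt_id' t).const_mul K)
    rw [mul_one, sub_self] at h3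
    exact h3
  have hconst := is_const_of_deriv_eq_zero (fun t => (hder2 t).differentiableAt)
    (fun t => (hder2 t).deriv) (c (Fin.last m)) 0
  have h0 : Ep (G δ (Function.update c (Fin.last m) 0) (forr m l) ∅) = 0 := by
    rw [Ep_last_zero, DD_forr_zero]
    simp
  simp only [h0, Function.update_eq_self, mul_zero, sub_zero] at hconst
  rw [Fin.prod_univ_castSucc, ← mul_assoc, pow_mul, ← hK]
  linarith

end P362.Law
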