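import Vale.Agent.Lib.P362.Law.TailC

/-! P362 Law/TailD: the bad event is negligible. -/

open MeasureTheory ProbabilityTheory

namespace P362.Law

private theorem mom_nonneg' (p : ℕ) : 0 ≤ mom p := by
  unfold mom
  exact integral_nonneg fun x => by
    show 0 ≤ x ^ (2 * p)
    rw [pow_mul]; positivity

private theorem int_bound (p : ℕ) (δ : ℝ) (h0 : 0 ≤ δ) (h1 : δ ≤ 1) :
    ∫ x, (1 + (δ * x) ^ (2 * p)) ^ 4 ∂(gaussianReal 0 1) ≤
      1 + δ ^ (2 * p) * (4 * mom p + 6 * mom (2 * p) + 4 * mom (3 * p) + mom (4 * p)) := by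
  have hi : ∀ n : ℕ, Integrable (fun x : ℝ => x ^ n) (gaussianReal 0 1) := integrable_pow1
  have hexp : (fun x : ℝ => (1 + (δ * x) ^ (2 * p)) ^ 4) = fun x =>
      1 + (4 * δ ^ (2 * p)) * x ^ (2 * p) + (6 * δ ^ (2 * (2 * p))) * x ^ (2 * (2 * p)) +
        (4 * δ ^ (2 * (3 * p))) * x ^ (2 * (3 * p)) +
        (δ ^ (2 * (4 * p))) * x ^ (2 * (4 * p)) := by
    funext x
    rw [mul_pow]
    ring
  have e0 : Integrable (fun _ : ℝ => (1 : ℝ)) (gaussianReal 0 1) := integrable_const _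
  have e1 : ∀ (a : ℝ) (n : ℕ), Integrable (fun x : ℝ => a * x ^ n) (gaussianReal 0 1) :=
    fun a n => (hi n).const_mul a
  rw [hexp]
  have i1 : Integrable (fun x : ℝ => 1 + (4 * δ ^ (2 * p)) * x ^ (2 * p))
      (gaussianReal 0 1) := e0.add (e1 _ _)
  have i2 : Integrable (fun x : ℝ => 1 + (4 * δ ^ (2 * p)) * x ^ (2 * p) +
      (6 * δ ^ (2 * (2 * p))) * x ^ (2 * (2 * p))) (gaussianReal 0 1) := i1.add (e1 _ _)
  have i3 : Integrable (fun x : ℝ => 1 + (4 * δ ^ (2 * p)) * x ^ (2 * p) +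
      (6 * δ ^ (2 * (2 * p))) * x ^ (2 * (2 * p)) +
      (4 * δ ^ (2 * (3 * p))) * x ^ (2 * (3 * p))) (gaussianReal 0 1) := i2.add (e1 _ _)
  rw [integral_add i3 (e1 _ _), integral_add i2 (e1 _ _), integral_add i1 (e1 _ _),
    integral_add e0 (e1 _ _)]
  simp only [integral_const_mul]
  have hm : ∀ q : ℕ, ∫ x : ℝ, x ^ (2 * q) ∂(gaussianReal 0 1) = mom q := fun q => rfl
  rw [hm, hm, hm, hm, integral_const]
  simp only [probReal_univ, one_smul]
  have hD : ∀ n : ℕ, 1 ≤ n → δ ^ (2 * (n * p)) ≤ δ ^ (2 * p) := fun n hn =>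
    pow_le_pow_of_le_one h0 h1 (by nlinarith)
  have h2 := mul_le_mul_of_nonneg_right (hD 2 (by norm_num)) (mom_nonneg' (2 * p))
  have h3 := mul_le_mul_of_nonneg_right (hD 3 (by norm_num)) (mom_nonneg' (3 * p))
  have h4 := mul_le_mul_of_nonneg_right (hD 4 (by norm_num)) (mom_nonneg' (4 * p))
  nlinarith

/-- choose `p` with `2 p e ≥ 2 A + 4`, `lam = N^(A+1)`;
`∫ (1 + (δ x)^(2p))^4 ≤ 1 + C_p δ^(2p)` -/
theorem tail (m : ℕ) (e A : ℝ) (he : 0 < e) (hA : 0 < A) :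
    ∃ l0 : ℕ, ∀ l ≥ l0, ∀ c : Fin (m + 1) → ℝ, (∀ j, |c j| ≤ 1) →
      ∫ g, iBad (((2 : ℝ) ^ l) ^ (-e)) g * W (((2 : ℝ) ^ l) ^ (-e)) c g ∂(gam m l) ≤
        ((2 : ℝ) ^ l) ^ (-A) := by
  obtain ⟨p, hp1, hp⟩ : ∃ p : ℕ, 1 ≤ p ∧ 2 * A + 4 ≤ e * (2 * (p : ℝ)) := by
    obtain ⟨n, hn⟩ := exists_nat_ge ((2 * A + 4) / e)
    refine ⟨n + 1, by omega, ?_⟩
    rw [div_le_iff₀ he] at hn
    push_cast
    nlinarith
  set C1 : ℝ := 2 * m * 4 ^ p * mom p with hC1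
  set CM : ℝ := 4 * mom p + 6 * mom (2 * p) + 4 * mom (3 * p) + mom (4 * p) with hCM
  set C2 : ℝ := Real.exp (CM * m) with hC2
  have hC1n : 0 ≤ C1 := by have := mom_nonneg' p; positivity
  have hCMn : 0 ≤ CM := by
    have h1 := mom_nonneg' p
    have h2 := mom_nonneg' (2 * p)
    have h3 := mom_nonneg' (3 * p)
    have h4 := mom_nonneg' (4 * p)
    positivity
  have hC2n : 0 < C2 := Real.exp_pos _
  obtain ⟨l0, hl0⟩ := pow_unbounded_of_one_lt (C1 + C2) (by norm_num : (1 : ℝ) < 2)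
  refine ⟨l0, fun l hl c hc => ?_⟩
  set N : ℝ := (2 : ℝ) ^ l with hN
  have hN1 : 1 ≤ N := one_le_pow₀ (by norm_num)
  have hN0 : 0 < N := by linarith
  have hNC : C1 + C2 ≤ N := hl0.le.trans (pow_le_pow_right₀ (by norm_num) hl)
  set δ : ℝ := N ^ (-e) with hδ
  have hδ0 : 0 < δ := Real.rpow_pos_of_pos hN0 _
  have hδ1 : δ ≤ 1 := Real.rpow_le_one_of_one_le_of_nonpos hN1 (by linarith)
  set D : ℝ := δ ^ (2 * p) with hD
  have hD0 : 0 ≤ D := by positivity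
  have hDle : D ≤ N ^ (-(2 * A + 4)) := by
    rw [hD, hδ, ← Real.rpow_natCast, ← Real.rpow_mul hN0.le]
    apply Real.rpow_le_rpow_of_exponent_le hN1
    push_cast
    nlinarith
  have hint := int_bound p δ hδ0.le hδ1
  have hmain := int_BW (m := m) (l := l) δ c hc p hp1 (N ^ (A + 1)) (Real.rpow_pos_of_pos hN0 _)
  refine hmain.trans ?_
  have hlam : 0 < N ^ (A + 1) := Real.rpow_pos_of_pos hN0 _
  have hinv : (N ^ (A + 1))⁻¹ = N ^ (-(A + 1)) := (Real.rpow_neg hN0.le _).symm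
  -- first term
  have hfirst : N ^ (A + 1) * (2 * (m * 2 ^ l) * ((2 * δ) ^ (2 * p) * mom p)) ≤
      C1 * N ^ (-(A + 1)) := by
    have e1 : N ^ (A + 1) * (2 * (m * 2 ^ l) * ((2 * δ) ^ (2 * p) * mom p)) =
        C1 * (N ^ (A + 1) * N * D) := by
      rw [hC1, hD, mul_pow, pow_mul (2 : ℝ) 2 p, ← hN]
      norm_num
      ring
    rw [e1]
    refine mul_le_mul_of_nonneg_left ?_ hC1n
    calc N ^ (A + 1) * N * D ≤ N ^ (A + 1) * N * N ^ (-(2 * A + 4)) :=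
          mul_le_mul_of_nonneg_left hDle (by positivity)
      _ = N ^ (A + 1) * N ^ (1 : ℝ) * N ^ (-(2 * A + 4)) := by rw [Real.rpow_one]
      _ = N ^ (A + 1 + 1 + -(2 * A + 4)) := by
          rw [← Real.rpow_add hN0, ← Real.rpow_add hN0]
      _ ≤ N ^ (-(A + 1)) := Real.rpow_le_rpow_of_exponent_le hN1 (by linarith)
  -- second term
  have hDN : D * N ≤ 1 := by
    calc D * N ≤ N ^ (-(2 * A + 4)) * N ^ (1 : ℝ) := by
          rw [Real.rpow_one]; exact mul_le_mul_of_nonneg_right hDle hN0.le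
      _ = N ^ (-(2 * A + 4) + 1) := (Real.rpow_add hN0 _ _).symm
      _ ≤ 1 := Real.rpow_le_one_of_one_le_of_nonpos hN1 (by linarith)
  have hpow : (∫ x, (1 + (δ * x) ^ (2 * p)) ^ 4 ∂(gaussianReal 0 1)) ^ (m * 2 ^ l) ≤ C2 := by
    have hnn : 0 ≤ ∫ x, (1 + (δ * x) ^ (2 * p)) ^ 4 ∂(gaussianReal 0 1) :=
      integral_nonneg fun x => by
        show 0 ≤ (1 + (δ * x) ^ (2 * p)) ^ 4
        positivity
    calc (∫ x, (1 + (δ * x) ^ (2 * p)) ^ 4 ∂(gaussianReal 0 1)) ^ (m * 2 ^ l)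
        ≤ (Real.exp (D * CM)) ^ (m * 2 ^ l) := by
          refine pow_le_pow_left₀ hnn (hint.trans ?_) _
          have := Real.add_one_le_exp (D * CM)
          linarith
      _ = Real.exp (D * CM * ((m * 2 ^ l : ℕ) : ℝ)) := by
          rw [← Real.exp_nat_mul]; ring_nf
      _ ≤ C2 := by
          rw [hC2]
          apply Real.exp_le_exp.mpr
          have hcast : ((m * 2 ^ l : ℕ) : ℝ) = m * N := by rw [hN]; push_cast; ring
          rw [hcast]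
          have : D * CM * (m * N) = (CM * m) * (D * N) := by ring
          rw [this]
          have hnn2 : 0 ≤ CM * m := by positivity
          nlinarith
  have hsecond : (∫ x, (1 + (δ * x) ^ (2 * p)) ^ 4 ∂(gaussianReal 0 1)) ^ (m * 2 ^ l) /
      N ^ (A + 1) ≤ C2 * N ^ (-(A + 1)) := by
    rw [div_eq_mul_inv, hinv]
    exact mul_le_mul_of_nonneg_right hpow (Real.rpow_nonneg hN0.le _)
  have hfin : (C1 + C2) * N ^ (-(A + 1)) ≤ N ^ (-A) := by
    calc (C1 + C2) * N ^ (-(A + 1)) ≤ N * N ^ (-(A + 1)) :=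
          mul_le_mul_of_nonneg_right hNC (Real.rpow_nonneg hN0.le _)
      _ = N ^ (1 : ℝ) * N ^ (-(A + 1)) := by rw [Real.rpow_one]
      _ = N ^ (1 + -(A + 1)) := (Real.rpow_add hN0 _ _).symm
      _ = N ^ (-A) := by ring_nf
  have hnn3 : 0 ≤ N ^ (-A) := Real.rpow_nonneg hN0.le _
  have hsum := add_le_add hfirst hsecond
  nlinarith

end P362.Law
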