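import Vale.Agent.Lib.P362.Interface
import Vale.Agent.Lib.P362.Law.C1
import Vale.Agent.Lib.P362.Law.Arr
import Vale.Agent.Lib.P362.Law.Chain
import Vale.Agent.Lib.P362.Law.Mean
import Vale.Agent.Lib.P362.Law.LawDef
import Vale.Agent.Lib.P362.Law.TailD

/-! P362 Law/Main: assembly of `PartLaw` (`N = 2^l`, `δ = N^(-ε/(4m))`, level-k bound with
`(m+1)/(2M) ≤ ε`). -/

open MeasureTheory ProbabilityTheory

namespace P362.Law

theorem Main_large (K e : ℝ) (he : 0 < e) : ∃ l0 : ℕ, ∀ l ≥ l0, K ≤ ((2 : ℝ) ^ l) ^ e := by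
  have h1 := (tendsto_rpow_atTop he).comp (tendsto_pow_atTop_atTop_of_one_lt
    (one_lt_two : (1 : ℝ) < 2))
  exact Filter.eventually_atTop.1 (h1.eventually_ge_atTop K)

theorem Main_forr {m l : ℕ} (x : VV m l → Bool) : |forr m l x| ≤ (2 ^ l) ^ (m + 1) := by
  unfold forr
  have h1 : |(forrZ m l x : ℝ)| ≤ (2 ^ l) ^ (m + 1) := by
    unfold forrZ
    push_cast
    refine (Finset.abs_sum_le_sum_abs _ _).trans ?_
    have hs : ∀ b : Bool, |((sgn b : ℤ) : ℝ)| = 1 := by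
      intro b
      cases b <;> simp [sgn]
    have hh : ∀ i i' : I l, |((had i i' : ℤ) : ℝ)| = 1 := by
      intro i i'
      unfold had
      push_cast
      rw [Finset.abs_prod]
      refine Finset.prod_eq_one fun c _ => ?_
      split_ifs <;> simp
    have h2 : ∀ i : Fin (m + 1) → I l, |(∏ j, ((sgn (x (j, i j)) : ℤ) : ℝ)) *
        ∏ j : Fin m, ((had (i j.castSucc) (i j.succ) : ℤ) : ℝ)| = 1 := by
      intro i
      rw [abs_mul, Finset.abs_prod, Finset.abs_prod]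
      simp only [hs, hh, Finset.prod_const_one, mul_one]
    rw [Finset.sum_congr rfl fun i _ => h2 i]
    simp
  have h3 : (1 : ℝ) ≤ Real.sqrt (2 ^ l) ^ (m + 2) := by
    refine one_le_pow₀ ?_
    rw [Real.one_le_sqrt]
    exact one_le_pow₀ one_le_two
  rw [abs_div, abs_of_nonneg (by positivity : (0 : ℝ) ≤ Real.sqrt (2 ^ l) ^ (m + 2))]
  exact (div_le_self (abs_nonneg _) h3).trans h1

/-- sign vector -/
noncomputable def cσ (m : ℕ) (σ : Bool) (j : Fin (m + 1)) : ℝ :=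
  if j = 0 then (if σ then 1 else -1) else 1

theorem cσ_abs (m : ℕ) (σ : Bool) (j : Fin (m + 1)) : |cσ m σ j| ≤ 1 := by
  unfold cσ
  cases σ <;> split_ifs <;> simp_all

theorem cσ_prod (m : ℕ) (σ : Bool) : ∏ j, cσ m σ j = if σ then 1 else -1 := by
  unfold cσ
  rw [Finset.prod_ite_eq' Finset.univ (0 : Fin (m + 1)) (fun _ => if σ = true then (1 : ℝ) else -1)]
  simp

/-- `δ^(2m) = N^(-ε/2)` -/
theorem Main_delta {m : ℕ} (hm : 1 ≤ m) {ε N : ℝ} (hN : 1 ≤ N) :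
    (N ^ (-(ε / (4 * m)))) ^ (2 * m) = N ^ (-(ε / 2)) := by
  have hm0 : (0 : ℝ) < m := by exact_mod_cast hm
  rw [← Real.rpow_natCast, ← Real.rpow_mul (by linarith)]
  congr 1
  push_cast
  field_simp
  norm_num

theorem asym_mean (m : ℕ) (ε : ℝ) (h0 : 0 < ε) (h1 : ε < 1 / 100) : ∃ l0 : ℕ,
    ∀ l ≥ l0, ∀ τ : ℝ, 0 ≤ τ → τ ≤ ((2 : ℝ) ^ l) ^ (-((m : ℝ) + 2)) →
      ((2 : ℝ) ^ l) ^ (-ε) ≤ ((2 : ℝ) ^ l) ^ (-(ε / 2)) - 2 * (2 ^ l) ^ (m + 1) * τ := by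
  obtain ⟨l0, hl0⟩ := Main_large 3 (ε / 2) (by positivity)
  refine ⟨l0, fun l hl τ hτ0 hτ => ?_⟩
  obtain ⟨N, hN⟩ : ∃ N : ℝ, N = (2 : ℝ) ^ l := ⟨_, rfl⟩
  have hN1 : 1 ≤ N := by
    rw [hN]
    exact one_le_pow₀ one_le_two
  have hN0 : 0 < N := by linarith
  have h3 := hl0 l hl
  rw [← hN] at hτ h3 ⊢
  have h4 : N ^ (m + 1) * τ ≤ N⁻¹ := by
    calc N ^ (m + 1) * τ ≤ N ^ (m + 1) * N ^ (-((m : ℝ) + 2)) :=
          mul_le_mul_of_nonneg_left hτ (by positivity)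
      _ = N⁻¹ := by
          rw [← Real.rpow_natCast, ← Real.rpow_add hN0, ← Real.rpow_neg_one]
          congr 1
          push_cast
          ring
  have h5 : N ^ (-(ε / 2)) = N ^ (-ε) * N ^ (ε / 2) := by
    rw [← Real.rpow_add hN0]
    congr 1
    ring
  have h6 : N⁻¹ ≤ N ^ (-ε) := by
    rw [← Real.rpow_neg_one]
    exact Real.rpow_le_rpow_of_exponent_le hN1 (by linarith)
  have h7 : N ^ (-ε) * 3 ≤ N ^ (-(ε / 2)) := by
    rw [h5]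
    exact mul_le_mul_of_nonneg_left h3 (by positivity)
  have h8 : 0 < N ^ (-ε) := by positivity
  nlinarith

theorem asym_acc (m M : ℕ) (hm : 1 ≤ m) (hM : 1 ≤ M) (ε : ℝ) (h0 : 0 < ε) (h1 : ε < 1 / 100)
    (hMe : ((m : ℝ) + 1) / (2 * M) ≤ ε) (C : ℝ) (hC : 0 < C) : ∃ l0 : ℕ, ∀ l ≥ l0,
      ∀ τ : ℝ, 0 ≤ τ → τ ≤ ((2 : ℝ) ^ l) ^ (-((m : ℝ) + 2)) →
        2 * τ + ((2 : ℝ) ^ l) ^ (-(ε / 2)) * (1 / Real.sqrt (2 ^ l)) ^ m *
          (C * (((2 : ℝ) ^ l) ^ (1 - 1 / ((m : ℝ) + 1) - 10 * ε)) ^ (((m + 1 : ℕ) : ℝ) / 2) *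
            (((m : ℝ) + 1) * 2 ^ l) ^ (((m + 1 : ℕ) : ℝ) / (2 * M)) + (2 ^ l) ^ (m + 1) * τ) ≤
          ((2 : ℝ) ^ l) ^ (-(5 * ε)) := by
  have hm0 : (0 : ℝ) < m := by exact_mod_cast hm
  have hm1 : (1 : ℝ) ≤ m := by exact_mod_cast hm
  have hM0 : (0 : ℝ) < M := by exact_mod_cast hM
  obtain ⟨C', hC'⟩ : ∃ C' : ℝ, C' = ((m : ℝ) + 1) ^ (((m + 1 : ℕ) : ℝ) / (2 * M)) := ⟨_, rfl⟩
  have hC'0 : 0 < C' := by
    rw [hC']
    positivity
  obtain ⟨l0, hl0⟩ := Main_large (C * C' + 3) (4 * ε) (by positivity)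
  refine ⟨l0, fun l hl τ hτ0 hτ => ?_⟩
  obtain ⟨N, hN⟩ : ∃ N : ℝ, N = (2 : ℝ) ^ l := ⟨_, rfl⟩
  have hN1 : 1 ≤ N := by
    rw [hN]
    exact one_le_pow₀ one_le_two
  have hN0 : 0 < N := by linarith
  have h3 := hl0 l hl
  rw [← hN] at hτ h3 ⊢
  have hb : N⁻¹ ≤ N ^ (-(9 * ε)) := by
    rw [← Real.rpow_neg_one]
    exact Real.rpow_le_rpow_of_exponent_le hN1 (by linarith)
  have h4 : N ^ (m + 1) * τ ≤ N⁻¹ := by
    calc N ^ (m + 1) * τ ≤ N ^ (m + 1) * N ^ (-((m : ℝ) + 2)) :=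
          mul_le_mul_of_nonneg_left hτ (by positivity)
      _ = N⁻¹ := by
          rw [← Real.rpow_natCast, ← Real.rpow_add hN0, ← Real.rpow_neg_one]
          congr 1
          push_cast
          ring
  have h4' : τ ≤ N⁻¹ := by
    have h5 : (1 : ℝ) ≤ N ^ (m + 1) := one_le_pow₀ hN1
    nlinarith
  have hs : (1 / Real.sqrt N) ^ m = N ^ (-((m : ℝ) / 2)) := by
    rw [Real.sqrt_eq_rpow, one_div, ← Real.rpow_neg hN0.le, ← Real.rpow_natCast,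
      ← Real.rpow_mul hN0.le]
    congr 1
    ring
  have hs1 : (1 / Real.sqrt N) ^ m ≤ 1 := by
    rw [hs]
    exact Real.rpow_le_one_of_one_le_of_nonpos hN1 (by linarith)
  have hd1 : N ^ (-(ε / 2)) ≤ 1 := Real.rpow_le_one_of_one_le_of_nonpos hN1 (by linarith)
  have hR : (1 / Real.sqrt N) ^ m *
      (C * (N ^ (1 - 1 / ((m : ℝ) + 1) - 10 * ε)) ^ (((m + 1 : ℕ) : ℝ) / 2) *
        (((m : ℝ) + 1) * N) ^ (((m + 1 : ℕ) : ℝ) / (2 * M))) ≤ C * C' * N ^ (-(9 * ε)) := by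
    rw [hs, ← Real.rpow_mul hN0.le, Real.mul_rpow (by positivity) hN0.le, ← hC']
    have h6 : N ^ (-((m : ℝ) / 2)) *
        (C * N ^ ((1 - 1 / ((m : ℝ) + 1) - 10 * ε) * (((m + 1 : ℕ) : ℝ) / 2)) *
          (C' * N ^ (((m + 1 : ℕ) : ℝ) / (2 * M)))) =
        C * C' * N ^ (-(5 * (m + 1) * ε) + ((m : ℝ) + 1) / (2 * M)) := by
      have h7 : -(5 * ((m : ℝ) + 1) * ε) + ((m : ℝ) + 1) / (2 * M) = -((m : ℝ) / 2) +
          (1 - 1 / ((m : ℝ) + 1) - 10 * ε) * (((m + 1 : ℕ) : ℝ) / 2) +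
          ((m + 1 : ℕ) : ℝ) / (2 * M) := by
        push_cast
        field_simp
        ring
      rw [h7, Real.rpow_add hN0, Real.rpow_add hN0]
      ring
    rw [h6]
    refine mul_le_mul_of_nonneg_left ?_ (by positivity)
    refine Real.rpow_le_rpow_of_exponent_le hN1 ?_
    nlinarith
  have h8 : 0 ≤ (1 / Real.sqrt N) ^ m := by positivity
  have h9 : 0 ≤ N ^ (-(ε / 2)) := by positivity
  have h10 : 0 ≤ N ^ (m + 1) * τ := by positivity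
  obtain ⟨R, hRd⟩ : ∃ R : ℝ, R = C * (N ^ (1 - 1 / ((m : ℝ) + 1) - 10 * ε)) ^
      (((m + 1 : ℕ) : ℝ) / 2) * (((m : ℝ) + 1) * N) ^ (((m + 1 : ℕ) : ℝ) / (2 * M)) := ⟨_, rfl⟩
  rw [← hRd] at hR ⊢
  have hR0 : 0 ≤ R := by
    rw [hRd]
    positivity
  have h11 : N ^ (-(ε / 2)) * (1 / Real.sqrt N) ^ m * (R + N ^ (m + 1) * τ) ≤
      C * C' * N ^ (-(9 * ε)) + N⁻¹ := by
    calc N ^ (-(ε / 2)) * (1 / Real.sqrt N) ^ m * (R + N ^ (m + 1) * τ)
        ≤ 1 * (1 / Real.sqrt N) ^ m * (R + N ^ (m + 1) * τ) := by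
          refine mul_le_mul_of_nonneg_right ?_ (by positivity)
          exact mul_le_mul_of_nonneg_right hd1 h8
      _ = (1 / Real.sqrt N) ^ m * R + (1 / Real.sqrt N) ^ m * (N ^ (m + 1) * τ) := by ring
      _ ≤ C * C' * N ^ (-(9 * ε)) + 1 * (N ^ (m + 1) * τ) :=
          add_le_add hR (mul_le_mul_of_nonneg_right hs1 h10)
      _ ≤ C * C' * N ^ (-(9 * ε)) + N⁻¹ := by linarith
  have h12 : N ^ (-(5 * ε)) = N ^ (-(9 * ε)) * N ^ (4 * ε) := by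
    rw [← Real.rpow_add hN0]
    congr 1
    ring
  have h13 : N ^ (-(9 * ε)) * (C * C' + 3) ≤ N ^ (-(5 * ε)) := by
    rw [h12]
    exact mul_le_mul_of_nonneg_left h3 (by positivity)
  linarith

end P362.Law

namespace P362

open Law

theorem partLaw : PartLaw := by
  intro m hm ε h0 h1
  have hm0 : (0 : ℝ) < m := by exact_mod_cast hm
  obtain ⟨M, hM, hMe⟩ : ∃ M : ℕ, 1 ≤ M ∧ ((m : ℝ) + 1) / (2 * M) ≤ ε := by
    obtain ⟨M, hM⟩ := exists_nat_gt (((m : ℝ) + 1) / (2 * ε))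
    have hM0 : (0 : ℝ) < M := lt_trans (by positivity) hM
    refine ⟨M, by exact_mod_cast hM0, ?_⟩
    rw [div_lt_iff₀ (by positivity)] at hM
    rw [div_le_iff₀ (by positivity)]
    linarith
  obtain ⟨C, hC, hlev⟩ := levelk (m + 1) M hM
  obtain ⟨l1, hl1⟩ := asym_acc m M hm hM ε h0 h1 hMe C hC
  obtain ⟨l2, hl2⟩ := asym_mean m ε h0 h1
  obtain ⟨l3, hl3⟩ := tail m (ε / (4 * m)) (m + 2) (by positivity) (by positivity)
  refine ⟨max l1 (max l2 l3), fun l hl => ?_⟩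
  have hacc := hl1 l (le_trans (le_max_left _ _) hl)
  have hmean := hl2 l (le_trans (le_trans (le_max_left _ _) (le_max_right _ _)) hl)
  have htail := hl3 l (le_trans (le_trans (le_max_right _ _) (le_max_right _ _)) hl)
  have hN1 : (1 : ℝ) ≤ (2 : ℝ) ^ l := one_le_pow₀ one_le_two
  obtain ⟨δ, hδ⟩ : ∃ δ : ℝ, δ = ((2 : ℝ) ^ l) ^ (-(ε / (4 * m))) := ⟨_, rfl⟩
  have hδ0 : 0 ≤ δ := by
    rw [hδ]
    positivity
  have hδm : δ ^ (2 * m) = ((2 : ℝ) ^ l) ^ (-(ε / 2)) := by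
    rw [hδ]
    exact Main_delta hm hN1
  rw [← hδ] at htail
  obtain ⟨τ, hτ⟩ : ∃ τ : ℝ, τ = ((2 : ℝ) ^ l) ^ (-((m : ℝ) + 2)) := ⟨_, rfl⟩
  have hτ0 : 0 ≤ τ := by
    rw [hτ]
    positivity
  rw [← hτ] at htail
  refine ⟨fun σ => lawR δ (cσ m σ), fun σ => lawR_isLaw δ _, fun σ => ?_, fun σ T hTd => ?_⟩
  · rw [sum_lawR]
    have h2 := clip_cmp hm δ (cσ m σ) (cσ_abs m σ) (forr m l) ((2 ^ l) ^ (m + 1)) Main_forr
    rw [mean_forr, cσ_prod, hδm] at h2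
    have h3 := hmean τ hτ0 hτ.le
    have h4 := htail (cσ m σ) (cσ_abs m σ)
    have h5 : 2 * ((2 : ℝ) ^ l) ^ (m + 1) * ∫ g, iBad δ g * W δ (cσ m σ) g ∂(gam m l) ≤
        2 * ((2 : ℝ) ^ l) ^ (m + 1) * τ := mul_le_mul_of_nonneg_left h4 (by positivity)
    have h6 := abs_le.1 (h2.trans h5)
    cases σ
    · simp only [Bool.false_eq_true, if_false] at h6 ⊢
      linarith [h6.2]
    · simp only [if_true] at h6 ⊢
      linarith [h6.1]
  · -- the advantage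
    obtain ⟨D, hD⟩ : ∃ D : ℝ, D = ((2 : ℝ) ^ l) ^ (1 - 1 / ((m : ℝ) + 1) - 10 * ε) := ⟨_, rfl⟩
    have hD1 : 1 ≤ D := by
      rw [hD]
      refine Real.one_le_rpow hN1 ?_
      have h2 : 1 / ((m : ℝ) + 1) ≤ 1 / 2 := by
        have : (1 : ℝ) ≤ m := by exact_mod_cast hm
        exact one_div_le_one_div_of_le (by norm_num) (by linarith)
      linarith
    rw [← hD] at hTd hacc
    have hind : ∀ x, |ind T x| ≤ 1 := by
      intro x
      unfold ind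
      split_ifs <;> simp
    obtain ⟨R, hR⟩ : ∃ R : ℝ, R = C * D ^ (((m + 1 : ℕ) : ℝ) / 2) *
      (((m : ℝ) + 1) * 2 ^ l) ^ (((m + 1 : ℕ) : ℝ) / (2 * M)) := ⟨_, rfl⟩
    have hR0 : 0 ≤ R := by
      rw [hR]
      positivity
    have hlevel : ∀ z : VV m l → ℝ, (∀ v, |z v| ≤ 1 / 2) →
        |∑ i : Fin (m + 1) → I l, (∏ j : Fin m, (had (i j.castSucc) (i j.succ) : ℝ)) *
          DD (ind T) (tv i) z| ≤ R := by
      intro z hz
      obtain ⟨a, ha1, ha2, ha3⟩ := path_as_array (m := m) (l := l)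
      rw [ha3 fun S => DD (ind T) S z]
      have hd1 : 1 ≤ ⌊D⌋₊ := (Nat.one_le_floor_iff D).2 hD1
      have hTf : T.depth ≤ ⌊D⌋₊ := Nat.le_floor hTd
      refine (hlev (VV m l) ⌊D⌋₊ hd1 T hTf a ha1 ha2 z hz).trans ?_
      rw [hR]
      have hcard : (Fintype.card (VV m l) : ℝ) = ((m : ℝ) + 1) * 2 ^ l := by
        simp
      rw [hcard]
      refine mul_le_mul_of_nonneg_right ?_ (by positivity)
      refine mul_le_mul_of_nonneg_left ?_ hC.le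
      refine Real.rpow_le_rpow (by positivity) (Nat.floor_le (by linarith)) (by positivity)
    have h2 := chain_bound hm δ hδ0 (cσ m σ) (cσ_abs m σ) (ind T) hind R τ hR0 hlevel htail
    have h3 := clip_cmp hm δ (cσ m σ) (cσ_abs m σ) (ind T) 1 hind
    have h4 := htail (cσ m σ) (cσ_abs m σ)
    have h5 := hacc τ hτ0 hτ.le
    rw [← hR, ← hδm] at h5
    have h6 : acc (lawR δ (cσ m σ)) T =
        ∫ g, DD (ind T) ∅ (fun v => clip (Zv δ (cσ m σ) g v)) ∂(gam m l) := by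
      rw [← sum_lawR]
      unfold acc ind
      refine Finset.sum_congr rfl fun x _ => ?_
      split_ifs <;> simp
    have h7 : acc (unif (VV m l)) T = DD (ind T) ∅ 0 := by
      unfold acc unif DD ind
      refine Finset.sum_congr rfl fun x _ => ?_
      simp only [Finset.notMem_empty, if_false, Pi.zero_apply, mul_zero, add_zero,
        Finset.prod_const, Finset.card_univ]
      split_ifs
      · rw [one_mul, one_div_pow]
      · rw [zero_mul]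
    rw [h6, h7]
    rw [abs_le] at h2 h3 ⊢
    constructor <;> nlinarith [h2.1, h2.2, h3.1, h3.2]

end P362
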