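import Vale.Agent.Lib.P362.Law.Defs

/-! P362 Law/Mom1: one-dimensional Gaussian moments. -/

open MeasureTheory ProbabilityTheory

namespace P362.Law

theorem integrable_pow1 (n : ℕ) : Integrable (fun x : ℝ => x ^ n) (gaussianReal 0 1) := by
  have h := integrable_pow_of_mem_interior_integrableExpSet (X := fun x : ℝ => x)
    (μ := gaussianReal 0 1) (by simp) n
  exact h

theorem mom_one : ∫ x : ℝ, x ∂(gaussianReal 0 1) = 0 := integral_id_gaussianReal

private theorem mom1_pdf (x : ℝ) : gaussianPDFReal 0 1 x =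
    (√(2 * Real.pi))⁻¹ * Real.exp (-(1 / 2) * x ^ 2) := by
  unfold gaussianPDFReal
  simp only [NNReal.coe_one, mul_one, sub_zero]
  congr 2
  ring

private theorem mom1_int (n : ℕ) : Integrable fun x : ℝ => x ^ n * gaussianPDFReal 0 1 x := by
  have h := integrable_rpow_mul_exp_neg_mul_sq (b := 1 / 2) (s := (n : ℝ)) (by norm_num)
    (by have := Nat.cast_nonneg (α := ℝ) n; linarith)
  simp only [Real.rpow_natCast] at h
  have h2 := h.const_mul ((√(2 * Real.pi))⁻¹)
  refine h2.congr (Filter.Eventually.of_forall fun x => ?_)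
  simp only [mom1_pdf]
  ring

private theorem mom1_deriv (x : ℝ) :
    HasDerivAt (fun x => gaussianPDFReal 0 1 x) (-(x * gaussianPDFReal 0 1 x)) x := by
  have h1 : HasDerivAt (fun x : ℝ => -(1 / 2) * x ^ 2) (-x) x := by
    have := (hasDerivAt_pow 2 x).const_mul (-(1 / 2) : ℝ)
    refine this.congr_deriv ?_
    simp
  have h2 := (h1.exp).const_mul ((√(2 * Real.pi))⁻¹)
  have h3 : (fun x => gaussianPDFReal 0 1 x) =
      fun x : ℝ => (√(2 * Real.pi))⁻¹ * Real.exp (-(1 / 2) * x ^ 2) := by
    funext x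
    exact mom1_pdf x
  rw [h3, mom1_pdf]
  refine h2.congr_deriv ?_
  ring

/-- integration by parts for monomials -/
theorem mom_rec (n : ℕ) : ∫ x : ℝ, x ^ (n + 2) ∂(gaussianReal 0 1) =
    (n + 1) * ∫ x : ℝ, x ^ n ∂(gaussianReal 0 1) := by
  rw [integral_gaussianReal_eq_integral_smul one_ne_zero,
    integral_gaussianReal_eq_integral_smul one_ne_zero]
  have key := integral_mul_deriv_eq_deriv_mul_of_integrable
    (u := fun x : ℝ => x ^ (n + 1)) (u' := fun x : ℝ => ((n : ℝ) + 1) * x ^ n)
    (v := fun x => gaussianPDFReal 0 1 x) (v' := fun x => -(x * gaussianPDFReal 0 1 x))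
    (fun x _ => by
      refine (hasDerivAt_pow (n + 1) x).congr_deriv ?_
      push_cast
      simp)
    (fun x _ => mom1_deriv x)
    ((mom1_int (n + 2)).neg.congr (Filter.Eventually.of_forall fun x => by
      simp only [Pi.mul_apply, Pi.neg_apply]
      ring))
    (((mom1_int n).const_mul ((n : ℝ) + 1)).congr (Filter.Eventually.of_forall fun x => by
      simp only [Pi.mul_apply]
      ring))
    (mom1_int (n + 1))
  have h1 : ∫ x : ℝ, x ^ (n + 1) * -(x * gaussianPDFReal 0 1 x) =
      -∫ x : ℝ, gaussianPDFReal 0 1 x • x ^ (n + 2) := by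
    rw [← integral_neg]
    refine integral_congr_ae (Filter.Eventually.of_forall fun x => ?_)
    simp only [smul_eq_mul]
    ring
  have h2 : ∫ x : ℝ, ((n : ℝ) + 1) * x ^ n * gaussianPDFReal 0 1 x =
      (n + 1) * ∫ x : ℝ, gaussianPDFReal 0 1 x • x ^ n := by
    rw [← integral_const_mul]
    refine integral_congr_ae (Filter.Eventually.of_forall fun x => ?_)
    simp only [smul_eq_mul]
    ring
  rw [h1, h2] at key
  linarith

end P362.Law
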