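import Vale.Agent.Lib.P362.Law.Mom1

/-! P362 Law/Mom2: Gaussian expectation of polynomials, integration by parts. -/

open MeasureTheory ProbabilityTheory MvPolynomial

namespace P362.Law

variable {m l : ℕ}

private noncomputable def mom2M (n : ℕ) : ℝ := ∫ x : ℝ, x ^ n ∂(gaussianReal 0 1)

private theorem mom2_eval_mon (s : GV m l →₀ ℕ) (a : ℝ) (g : GV m l → ℝ) :
    eval g (monomial s a) = a * ∏ u, g u ^ s u := by
  rw [eval_monomial, Finsupp.prod_fintype _ _ (fun _ => pow_zero _)]

private theorem mom2_int_prod (s : GV m l →₀ ℕ) :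
    Integrable (fun g : GV m l → ℝ => ∏ u, g u ^ s u) (gam m l) :=
  Integrable.fintype_prod (f := fun (u : GV m l) (x : ℝ) => x ^ s u)
    fun u => integrable_pow1 (s u)

theorem integrable_eval (P : MvPolynomial (GV m l) ℝ) :
    Integrable (fun g => eval g P) (gam m l) := by
  induction P using MvPolynomial.induction_on' with
  | monomial s a =>
    simp only [mom2_eval_mon]
    exact (mom2_int_prod s).const_mul a
  | add p q hp hq =>
    simp only [map_add]
    exact hp.add hq

theorem Ep_add (P Q : MvPolynomial (GV m l) ℝ) : Ep (P + Q) = Ep P + Ep Q := by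
  unfold Ep
  simp only [map_add]
  exact integral_add (integrable_eval P) (integrable_eval Q)

theorem Ep_C_mul (a : ℝ) (P : MvPolynomial (GV m l) ℝ) : Ep (C a * P) = a * Ep P := by
  unfold Ep
  simp only [map_mul, eval_C]
  exact integral_const_mul a _

theorem Ep_sum {ι : Type*} (s : Finset ι) (P : ι → MvPolynomial (GV m l) ℝ) :
    Ep (∑ i ∈ s, P i) = ∑ i ∈ s, Ep (P i) := by
  classical
  induction s using Finset.induction_on with
  | empty =>
    rw [Finset.sum_empty, Finset.sum_empty]
    unfold Ep
    simp only [map_zero, integral_zero]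
  | insert a s ha ih => rw [Finset.sum_insert ha, Finset.sum_insert ha, Ep_add, ih]

private theorem mom2_Ep_mon (s : GV m l →₀ ℕ) (a : ℝ) :
    Ep (monomial s a) = a * ∏ u, mom2M (s u) := by
  unfold Ep
  simp only [mom2_eval_mon]
  rw [integral_const_mul]
  congr 1
  unfold gam mom2M
  exact integral_fintype_prod_eq_prod (fun (u : GV m l) (x : ℝ) => x ^ s u)

private theorem mom2M_zero : mom2M 0 = 1 := by
  unfold mom2M
  simp

theorem Ep_C (a : ℝ) : Ep (C a : MvPolynomial (GV m l) ℝ) = a := by
  have h := mom2_Ep_mon (m := m) (l := l) 0 a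
  rw [← C_apply] at h
  rw [h]
  simp only [Finsupp.coe_zero, Pi.zero_apply, mom2M_zero, Finset.prod_const_one, mul_one]

private theorem mom2M_succ (k : ℕ) : mom2M (1 + k) = k * mom2M (k - 1) := by
  cases k with
  | zero =>
    unfold mom2M
    simp only [add_zero, pow_one, Nat.cast_zero, zero_mul]
    exact mom_one
  | succ k =>
    unfold mom2M
    have h := mom_rec k
    rw [show 1 + (k + 1) = k + 2 by ring, h, Nat.add_sub_cancel]
    push_cast
    ring

/-- Gaussian integration by parts (on monomials this is `mom_rec`, `mom_one` and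
`integral_fintype_prod_eq_prod`) -/
theorem ibp (u : GV m l) (P : MvPolynomial (GV m l) ℝ) : Ep (X u * P) = Ep (pderiv u P) := by
  classical
  induction P using MvPolynomial.induction_on' with
  | monomial s a =>
    have h1 : (X u * monomial s a : MvPolynomial (GV m l) ℝ) =
        monomial (Finsupp.single u 1 + s) a := by
      rw [monomial_single_add, pow_one]
    rw [h1, pderiv_monomial, mom2_Ep_mon, mom2_Ep_mon,
      ← Finset.mul_prod_erase Finset.univ (fun v => mom2M ((Finsupp.single u 1 + s : GV m l →₀ ℕ) v))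
        (Finset.mem_univ u),
      ← Finset.mul_prod_erase Finset.univ (fun v => mom2M ((s - Finsupp.single u 1 : GV m l →₀ ℕ) v))
        (Finset.mem_univ u)]
    have h2 : ∏ v ∈ Finset.univ.erase u, mom2M ((Finsupp.single u 1 + s : GV m l →₀ ℕ) v) =
        ∏ v ∈ Finset.univ.erase u, mom2M ((s - Finsupp.single u 1 : GV m l →₀ ℕ) v) := by
      refine Finset.prod_congr rfl fun v hv => ?_
      have hne : u ≠ v := (Finset.ne_of_mem_erase hv).symm
      rw [Finsupp.add_apply, Finsupp.tsub_apply, Finsupp.single_apply, if_neg hne, zero_add,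
        tsub_zero]
    rw [h2, Finsupp.add_apply, Finsupp.tsub_apply, Finsupp.single_eq_same, mom2M_succ]
    ring
  | add p q hp hq =>
    rw [mul_add, Ep_add, hp, hq, map_add, Ep_add]

end P362.Law
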