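import Vale.Agent.Lib.P362.Law.Step

/-! P362 Law/Path: iteration of `step` along the blocks `m, m-1, ..., 0`. -/

open MvPolynomial

namespace P362.Law

variable {m l : ℕ}

/-- the points `(r, i r)`, `r < j` -/
private def pth (j : ℕ) (hj : j ≤ m + 1) (i : Fin j → I l) : Finset (VV m l) :=
  Finset.univ.image (fun r : Fin j => (Fin.castLE hj r, i r))

private theorem pth_snoc (j : ℕ) (hj : j + 1 ≤ m + 1) (i : Fin j → I l) (h : I l)
    (hj' : j ≤ m + 1) :
    pth (m := m) (j + 1) hj (Fin.snoc (α := fun _ => I l) i h) =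
      insert ((⟨j, hj⟩ : Fin (m + 1)), h) (pth j hj' i) := by
  ext v
  unfold pth
  rw [Finset.mem_insert, Finset.mem_image, Finset.mem_image]
  constructor
  · rintro ⟨r, _, rfl⟩
    induction r using Fin.lastCases with
    | last =>
      left
      rw [Fin.snoc_last]
      rfl
    | cast r =>
      right
      refine ⟨r, Finset.mem_univ _, ?_⟩
      rw [Fin.snoc_castSucc]
      rfl
  · rintro (rfl | ⟨r, _, rfl⟩)
    · refine ⟨Fin.last j, Finset.mem_univ _, ?_⟩
      rw [Fin.snoc_last]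
      rfl
    · refine ⟨r.castSucc, Finset.mem_univ _, ?_⟩
      rw [Fin.snoc_castSucc]
      rfl

/-- weight of a path with last point `h` -/
private noncomputable def pw (j : ℕ) (i : Fin j → I l) (h : I l) : ℝ :=
  ∏ r : Fin j, Hm (Fin.snoc (α := fun _ => I l) i h r.castSucc)
    (Fin.snoc (α := fun _ => I l) i h r.succ)

private theorem pw_snoc (j : ℕ) (i : Fin j → I l) (i' h : I l) :
    pw (j + 1) (Fin.snoc (α := fun _ => I l) i i') h = pw j i i' * Hm i' h := by
  unfold pw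
  rw [Fin.prod_univ_castSucc]
  congr 1
  · refine Finset.prod_congr rfl fun r _ => ?_
    rw [Fin.snoc_castSucc, Fin.snoc_castSucc, Fin.succ_castSucc, Fin.snoc_castSucc]
  · rw [Fin.snoc_castSucc, Fin.snoc_last, Fin.succ_last, Fin.snoc_last]

private theorem sum_snoc (j : ℕ) (F : (Fin (j + 1) → I l) → ℝ) :
    ∑ i : Fin (j + 1) → I l, F i =
      ∑ i' : I l, ∑ i : Fin j → I l, F (Fin.snoc (α := fun _ => I l) i i') := by
  rw [← (Fin.snocEquiv (fun _ : Fin (j + 1) => I l)).sum_comp, Fintype.sum_prod_type]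
  rfl

private theorem path_aux (δ : ℝ) (c : Fin (m + 1) → ℝ) (f : (VV m l → Bool) → ℝ) :
    ∀ (j : ℕ) (hj : j < m + 1) (h : I l) (S : Finset (VV m l)),
      ((⟨j, hj⟩ : Fin (m + 1)), h) ∈ S →
      (∀ r : Fin (m + 1), r.val < j → ∀ i', (r, i') ∉ S) →
      Ep (Ap δ ⟨j, hj⟩ h * G δ c f S) =
        (δ ^ 2) ^ j * (∏ r : Fin j, c (Fin.castLE hj.le r)) *
          ∑ i : Fin j → I l, pw j i h * Ep (G δ c f (pth j hj.le i ∪ S)) := by
  intro j
  induction j with
  | zero =>
    intro hj h S _ _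
    have h1 : Ap (m := m) (l := l) δ ⟨0, hj⟩ h = 1 := rfl
    have h2 : ∀ i : Fin 0 → I l, pth (m := m) 0 hj.le i ∪ S = S := by
      intro i
      have h3 : pth (m := m) 0 hj.le i = ∅ := by
        unfold pth
        rw [Finset.univ_eq_empty, Finset.image_empty]
      rw [h3, Finset.empty_union]
    simp only [h1, h2, one_mul, pow_zero, pw, Finset.univ_eq_empty, Finset.prod_empty]
    rw [Finset.sum_const, Finset.card_univ, Fintype.card_fun, Fintype.card_fin, pow_zero,
      one_smul]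
  | succ j ih =>
    intro hj h S hS hS'
    have hj1 : j < m := Nat.lt_of_succ_lt_succ hj
    have h1 := step δ c f S ⟨j, hj1⟩ h hS (fun i' => hS' _ (Nat.lt_succ_self j) i')
    have h2 : Ep (Ap δ ⟨j + 1, hj⟩ h * G δ c f S) = δ ^ 2 * c ⟨j, hj1.le.trans_lt (Nat.lt_succ_self m)⟩ *
        ∑ i' : I l, Hm h i' * Ep (Ap δ ⟨j, hj1.le.trans_lt (Nat.lt_succ_self m)⟩ i' *
          G δ c f (insert ((⟨j, hj1.le.trans_lt (Nat.lt_succ_self m)⟩ : Fin (m + 1)), i') S)) := h1
    rw [h2]
    have hj2 : j < m + 1 := hj1.le.trans_lt (Nat.lt_succ_self m)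
    have h3 : ∀ i' : I l, Ep (Ap δ ⟨j, hj2⟩ i' *
          G δ c f (insert ((⟨j, hj2⟩ : Fin (m + 1)), i') S)) =
        (δ ^ 2) ^ j * (∏ r : Fin j, c (Fin.castLE hj2.le r)) *
          ∑ i : Fin j → I l, pw j i i' *
            Ep (G δ c f (pth j hj2.le i ∪ insert ((⟨j, hj2⟩ : Fin (m + 1)), i') S)) := by
      intro i'
      refine ih hj2 i' _ (Finset.mem_insert_self _ _) fun r hr i'' hmem => ?_
      rcases Finset.mem_insert.1 hmem with h4 | h4
      · have h5 := congrArg (fun v : VV m l => v.1.val) h4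
        exact absurd h5 (Nat.ne_of_lt hr)
      · exact hS' r (hr.trans (Nat.lt_succ_self j)) i'' h4
    rw [sum_snoc]
    have h4 : ∀ (i' : I l) (i : Fin j → I l),
        pth (j + 1) hj.le (Fin.snoc (α := fun _ => I l) i i') ∪ S =
          pth j hj2.le i ∪ insert ((⟨j, hj2⟩ : Fin (m + 1)), i') S := by
      intro i' i
      rw [pth_snoc j hj.le i i' hj2.le, Finset.insert_union, Finset.union_insert]
    have h5 : ∏ r : Fin (j + 1), c (Fin.castLE hj.le r) =
        (∏ r : Fin j, c (Fin.castLE hj2.le r)) * c ⟨j, hj2⟩ := by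
      rw [Fin.prod_univ_castSucc]
      rfl
    rw [h5]
    simp only [h3, pw_snoc, h4]
    rw [Finset.mul_sum, Finset.mul_sum]
    refine Finset.sum_congr rfl fun i' _ => ?_
    rw [Hm_symm h i']
    have h6 : ∑ i : Fin j → I l, pw j i i' * Hm i' h *
          Ep (G δ c f (pth j hj2.le i ∪ insert ((⟨j, hj2⟩ : Fin (m + 1)), i') S)) =
        Hm i' h * ∑ i : Fin j → I l, pw j i i' *
          Ep (G δ c f (pth j hj2.le i ∪ insert ((⟨j, hj2⟩ : Fin (m + 1)), i') S)) := by
      rw [Finset.mul_sum]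
      refine Finset.sum_congr rfl fun i _ => ?_
      ring
    rw [h6]
    ring

/-- Suggested proof: `Fin.reverseInduction` on `j` for
`∑ h, Ep (Ap last h * G {(last,h)}) = (δ^2)^(m-j) * (∏ r with j ≤ r, c r.castSucc) * (2^l)^(-j) *
 ∑ i : Fin (m+1) → I l, (∏ r with j ≤ r.castSucc, Hm (i r.castSucc) (i r.succ)) *
  Ep (Ap δ j (i j) * G δ c f {(r, i r) | j ≤ r})`. -/
theorem path_sum (δ : ℝ) (c : Fin (m + 1) → ℝ) (f : (VV m l → Bool) → ℝ) :
    ∑ h : I l, Ep (Ap δ (Fin.last m) h * G δ c f {(Fin.last m, h)}) =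
      (δ ^ 2) ^ m * (∏ j : Fin m, c j.castSucc) *
        ∑ i : Fin (m + 1) → I l, (∏ j : Fin m, Hm (i j.castSucc) (i j.succ)) *
          Ep (G δ c f (tv i)) := by
  have h1 : ∀ h : I l, Ep (Ap δ (Fin.last m) h * G δ c f {(Fin.last m, h)}) =
      (δ ^ 2) ^ m * (∏ j : Fin m, c j.castSucc) *
        ∑ i : Fin m → I l, pw m i h *
          Ep (G δ c f (pth m (Nat.lt_succ_self m).le i ∪ {(Fin.last m, h)})) := by
    intro h
    refine path_aux δ c f m (Nat.lt_succ_self m) h {(Fin.last m, h)}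
      (Finset.mem_singleton_self _) fun r hr i' hmem => ?_
    have h5 := congrArg (fun v : VV m l => v.1.val) (Finset.mem_singleton.1 hmem)
    exact absurd h5 (Nat.ne_of_lt hr)
  rw [Finset.sum_congr rfl fun h _ => h1 h, ← Finset.mul_sum]
  congr 1
  rw [sum_snoc]
  refine Finset.sum_congr rfl fun h _ => Finset.sum_congr rfl fun i _ => ?_
  have h2 : pth m (Nat.lt_succ_self m).le i ∪ {(Fin.last m, h)} =
      tv (Fin.snoc (α := fun _ => I l) i h) := by
    have h3 : tv (Fin.snoc (α := fun _ => I l) i h) =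
        pth (m := m) (m + 1) le_rfl (Fin.snoc (α := fun _ => I l) i h) := rfl
    rw [h3, pth_snoc m le_rfl i h (Nat.lt_succ_self m).le, Finset.union_comm,
      ← Finset.insert_eq]
    rfl
  rw [h2]
  rfl

end P362.Law
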