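import Vale.Agent.Lib.P362.Law.Mom2
import Vale.Agent.Lib.P362.Law.Had

/-! P362 Law/Rot: rotation invariance on polynomials. -/

open MeasureTheory ProbabilityTheory MvPolynomial

namespace P362.Law

variable {m l : ℕ}

theorem rot_pderiv_Yp (u w : GV m l) (i' : I l) :
    pderiv (u.1, i') (Yp w : MvPolynomial (GV m l) ℝ) =
      if u.1 = w.1 then C (Hm w.2 i') else 0 := by
  rw [Yp, map_sum]
  by_cases h : u.1 = w.1
  · rw [if_pos h, Finset.sum_eq_single i']
    · rw [pderiv_C_mul, h, pderiv_X_self, mul_one]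
    · intro b _ hb
      rw [pderiv_C_mul, pderiv_X_of_ne, mul_zero]
      intro h2
      exact hb (Prod.ext_iff.mp h2).2
    · intro h2
      exact absurd (Finset.mem_univ _) h2
  · rw [if_neg h]
    refine Finset.sum_eq_zero fun b _ => ?_
    rw [pderiv_C_mul, pderiv_X_of_ne, mul_zero]
    intro h2
    exact h (Prod.ext_iff.mp h2).1.symm

/-- derivative in the direction of the row `u.2` of `Hm` in block `u.1` -/
theorem dir_Yp (u w : GV m l) :
    ∑ i' : I l, C (Hm u.2 i') * pderiv (u.1, i') (Yp w : MvPolynomial (GV m l) ℝ) =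
      if u = w then 1 else 0 := by
  simp only [rot_pderiv_Yp]
  by_cases h : u.1 = w.1
  · simp only [if_pos h]
    have h1 : ∑ i' : I l, (C (Hm u.2 i') * C (Hm w.2 i') : MvPolynomial (GV m l) ℝ) =
        C (∑ i' : I l, Hm u.2 i' * Hm w.2 i') := by
      rw [map_sum]
      refine Finset.sum_congr rfl fun b _ => ?_
      rw [C_mul]
    rw [h1, Hm_orth]
    by_cases h2 : u.2 = w.2
    · have h3 : u = w := Prod.ext h h2
      rw [if_pos h2, if_pos h3, C_1]
    · have h3 : u ≠ w := fun h3 => h2 (by rw [h3])
      rw [if_neg h2, if_neg h3, C_0]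
  · have h3 : u ≠ w := fun h3 => h (by rw [h3])
    rw [if_neg h3]
    simp [h]

theorem rot_dir_bind (u : GV m l) (P : MvPolynomial (GV m l) ℝ) :
    ∑ i' : I l, C (Hm u.2 i') * pderiv (u.1, i') (bind₁ Yp P : MvPolynomial (GV m l) ℝ) =
      bind₁ Yp (pderiv u P) := by
  induction P using MvPolynomial.induction_on with
  | C a => simp
  | add p q hp hq =>
    simp only [map_add, mul_add, Finset.sum_add_distrib, hp, hq]
  | mul_X p w hp =>
    have h1 : ∀ i' : I l, C (Hm u.2 i') *
        pderiv (u.1, i') (bind₁ Yp (p * X w) : MvPolynomial (GV m l) ℝ) =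
        (C (Hm u.2 i') * pderiv (u.1, i') (bind₁ Yp p)) * Yp w +
        bind₁ Yp p * (C (Hm u.2 i') * pderiv (u.1, i') (Yp w)) := by
      intro i'
      rw [map_mul, bind₁_X_right, pderiv_mul]
      ring
    simp only [h1]
    rw [Finset.sum_add_distrib, ← Finset.sum_mul, hp, ← Finset.mul_sum, dir_Yp, pderiv_mul,
      map_add, map_mul, map_mul, bind₁_X_right]
    congr 2
    by_cases h : u = w
    · subst h
      simp
    · rw [if_neg h, pderiv_X_of_ne (fun h2 => h h2.symm), map_zero]

theorem rot_Ep_mono (n : ℕ) : ∀ s : GV m l →₀ ℕ, s.degree = n → ∀ a : ℝ,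
    Ep (bind₁ Yp (monomial s a)) = Ep (monomial s a) := by
  induction n using Nat.strong_induction_on with
  | _ n ih =>
    intro s hs a
    by_cases h0 : s = 0
    · subst h0
      have : (monomial (0 : GV m l →₀ ℕ) a) = C a := rfl
      rw [this, bind₁_C_right]
    · obtain ⟨u, hu⟩ : ∃ u, s u ≠ 0 := by
        by_contra hc
        push Not at hc
        exact h0 (Finsupp.ext hc)
      have hle : Finsupp.single u 1 ≤ s := by
        rw [Finsupp.single_le_iff]
        omega
      obtain ⟨s', hs'⟩ : ∃ s', s = Finsupp.single u 1 + s' := ⟨s - Finsupp.single u 1, by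
        rw [add_tsub_cancel_of_le hle]⟩
      have hmono : (monomial s a : MvPolynomial (GV m l) ℝ) = X u * monomial s' a := by
        rw [hs', X, monomial_mul, one_mul]
      have hdeg : s'.degree + 1 = n := by
        rw [← hs, hs', map_add, Finsupp.degree_single]
        ring
      have hpd : pderiv u (monomial s' a : MvPolynomial (GV m l) ℝ) =
          monomial (s' - Finsupp.single u 1) (a * (s' u)) := by
        rw [pderiv_monomial]
      rw [hmono, ibp, map_mul, bind₁_X_right]
      have h2 : Ep (Yp u * bind₁ Yp (monomial s' a) : MvPolynomial (GV m l) ℝ) =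
          Ep (bind₁ Yp (pderiv u (monomial s' a))) := by
        rw [← rot_dir_bind, Ep_sum]
        conv_lhs => rw [Yp, Finset.sum_mul]
        rw [Ep_sum]
        refine Finset.sum_congr rfl fun b _ => ?_
        rw [mul_assoc, Ep_C_mul, Ep_C_mul, ibp]
      rw [h2, hpd]
      refine ih (s' - Finsupp.single u 1).degree ?_ _ rfl _
      have h3 : (s' - Finsupp.single u 1).degree ≤ s'.degree := by
        exact Finsupp.degree_mono tsub_le_self
      omega

/-- `E P(Hg) = E P(g)` (induction on monomials/degree with `ibp` and `dir_Yp`: both sides satisfy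
`E (X_u P) = E (pderiv u P)`) -/
theorem Ep_rot (P : MvPolynomial (GV m l) ℝ) : Ep (bind₁ Yp P) = Ep P := by
  rw [P.as_sum, map_sum, Ep_sum, Ep_sum]
  refine Finset.sum_congr rfl fun s _ => ?_
  exact rot_Ep_mono _ s rfl _

end P362.Law
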