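import Vale.Agent.Lib.P362.Law.Mom2
import Vale.Agent.Lib.P362.Law.Had
import Vale.Agent.Lib.P362.Law.DG

/-! P362 Law/Step: one step of the Gaussian chain. -/

open MvPolynomial

namespace P362.Law

variable {m l : ℕ}

private theorem step_Ep_zero : Ep (0 : MvPolynomial (GV m l) ℝ) = 0 := by
  have h := Ep_C (m := m) (l := l) 0
  rwa [C_0] at h

private theorem step_ne (j : Fin m) : j.succ ≠ j.castSucc := by
  intro h
  have := congrArg Fin.val h
  simp at this

private theorem step_pd1 (δ : ℝ) (c : Fin (m + 1) → ℝ) (j : Fin m) (i' b : I l) :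
    pderiv (j, i') (Zp δ c (j.succ, b)) =
      C (c j.succ * (δ * Hm b i')) * Bp δ j.succ b := by
  unfold Zp
  rw [pderiv_C_mul, pderiv_mul, pderiv_Ap, pderiv_Bp, if_pos rfl,
    if_neg (fun h => step_ne j h.1), mul_zero, add_zero, C_mul (a := c j.succ), mul_assoc]

private theorem step_pd2 (δ : ℝ) (c : Fin (m + 1) → ℝ) (j : Fin m) (i' : I l) :
    pderiv (j, i') (Zp δ c (j.castSucc, i')) =
      C (c j.castSucc * δ) * Ap δ j.castSucc i' := by
  unfold Zp
  rw [pderiv_C_mul, pderiv_mul, pderiv_Ap, pderiv_Bp, if_neg (fun h => step_ne j h.symm),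
    if_pos ⟨rfl, rfl⟩, zero_mul, zero_add, C_mul (a := c j.castSucc), mul_comm (Ap δ _ _) (C δ),
    mul_assoc]

private theorem step_pd3 (δ : ℝ) (c : Fin (m + 1) → ℝ) (j : Fin m) (i' : I l)
    (a : Fin (m + 1)) (b : I l) (h1 : a ≠ j.succ) (h2 : ¬ (a = j.castSucc ∧ b = i')) :
    pderiv (j, i') (Zp δ c (a, b)) = 0 := by
  unfold Zp
  rw [pderiv_C_mul, pderiv_mul, pderiv_Ap, pderiv_Bp, if_neg h1, if_neg h2, zero_mul, mul_zero,
    add_zero, mul_zero]

private theorem step_sum {α β : Type} [Fintype α] [DecidableEq α] [Fintype β] [DecidableEq β]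
    (t : α → β → ℝ) (a1 a2 : α) (b2 : β) (hne : a1 ≠ a2)
    (h0 : ∀ a b, a ≠ a1 → ¬ (a = a2 ∧ b = b2) → t a b = 0) :
    ∑ a, ∑ b, t a b = ∑ b, t a1 b + t a2 b2 := by
  rw [← Finset.add_sum_erase Finset.univ _ (Finset.mem_univ a1)]
  congr 1
  rw [Finset.sum_eq_single a2]
  · rw [Finset.sum_eq_single b2]
    · intro b _ hb
      exact h0 a2 b (fun h => hne h.symm) (fun h => hb h.2)
    · intro h
      exact absurd (Finset.mem_univ _) h
  · intro a ha ha2
    exact Finset.sum_eq_zero (fun b _ => h0 a b (Finset.ne_of_mem_erase ha) (fun h => ha2 h.1))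
  · intro h
    exact absurd (Finset.mem_erase.2 ⟨fun h => hne h.symm, Finset.mem_univ _⟩) h

private theorem step_pderiv (δ : ℝ) (c : Fin (m + 1) → ℝ) (f : (VV m l → Bool) → ℝ)
    (S : Finset (VV m l)) (j : Fin m) (i' : I l) (hS' : (j.castSucc, i') ∉ S) :
    Ep (pderiv (j, i') (G δ c f S)) =
      (∑ b : I l, if (j.succ, b) ∈ S then 0 else c j.succ * (δ * Hm b i') *
        Ep (G δ c f (insert (j.succ, b) S) * Bp δ j.succ b)) +
      c j.castSucc * δ *
        Ep (Ap δ j.castSucc i' * G δ c f (insert (j.castSucc, i') S)) := by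
  rw [pderiv_G, Ep_sum, Fintype.sum_prod_type,
    step_sum _ j.succ j.castSucc i' (step_ne j)]
  · congr 1
    · refine Finset.sum_congr rfl (fun b _ => ?_)
      by_cases hb : (j.succ, b) ∈ S
      · rw [if_pos hb, if_pos hb, step_Ep_zero]
      · rw [if_neg hb, if_neg hb, step_pd1, ← Ep_C_mul]
        exact congrArg Ep (by ring)
    · rw [if_neg hS', step_pd2, ← Ep_C_mul]
      exact congrArg Ep (by ring)
  · intro a b h1 h2
    rw [step_pd3 δ c j i' a b h1 h2, mul_zero, ite_self, step_Ep_zero]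

/-- `Ap δ j.succ h = δ ∑ Hm h i' X (j,i')`; integrate by parts; the terms from block `j.succ`
vanish by `Hm_orth` and `(j.succ, h) ∈ S`. -/
theorem step (δ : ℝ) (c : Fin (m + 1) → ℝ) (f : (VV m l → Bool) → ℝ)
    (S : Finset (VV m l)) (j : Fin m) (h : I l) (hS : (j.succ, h) ∈ S)
    (hS' : ∀ i', (j.castSucc, i') ∉ S) :
    Ep (Ap δ j.succ h * G δ c f S) =
      δ ^ 2 * c j.castSucc * ∑ i' : I l, Hm h i' *
        Ep (Ap δ j.castSucc i' * G δ c f (insert (j.castSucc, i') S)) := by
  have hA : Ap δ j.succ h * G δ c f S =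
      ∑ i' : I l, C (δ * Hm h i') * (X (j, i') * G δ c f S) := by
    have h0 : Ap (m := m) δ j.succ h = C δ * Yp (j, h) := rfl
    rw [h0]
    unfold Yp
    rw [Finset.mul_sum, Finset.sum_mul]
    refine Finset.sum_congr rfl (fun i' _ => ?_)
    rw [C_mul]
    ring
  have hE : ∀ i' : I l, Ep (C (δ * Hm h i') * (X (j, i') * G δ c f S)) =
      δ * Hm h i' * (∑ b : I l, if (j.succ, b) ∈ S then 0 else
        c j.succ * (δ * Hm b i') * Ep (G δ c f (insert (j.succ, b) S) * Bp δ j.succ b)) +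
      δ * Hm h i' * (c j.castSucc * δ *
        Ep (Ap δ j.castSucc i' * G δ c f (insert (j.castSucc, i') S))) := by
    intro i'
    rw [Ep_C_mul, ibp, step_pderiv δ c f S j i' (hS' i'), mul_add]
  rw [hA, Ep_sum, Finset.sum_congr rfl (fun i' _ => hE i'), Finset.sum_add_distrib]
  have hvan : ∑ i' : I l, δ * Hm h i' * (∑ b : I l, if (j.succ, b) ∈ S then 0 else
      c j.succ * (δ * Hm b i') * Ep (G δ c f (insert (j.succ, b) S) * Bp δ j.succ b)) = 0 := by
    simp only [Finset.mul_sum]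
    rw [Finset.sum_comm]
    refine Finset.sum_eq_zero (fun b _ => ?_)
    by_cases hb : (j.succ, b) ∈ S
    · refine Finset.sum_eq_zero (fun i' _ => ?_)
      rw [if_pos hb, mul_zero]
    · have hbh : h ≠ b := by
        intro he
        rw [he] at hS
        exact hb hS
      have h1 : ∀ i' : I l, δ * Hm h i' * (if (j.succ, b) ∈ S then 0 else
          c j.succ * (δ * Hm b i') * Ep (G δ c f (insert (j.succ, b) S) * Bp δ j.succ b)) =
          (δ * δ * c j.succ * Ep (G δ c f (insert (j.succ, b) S) * Bp δ j.succ b)) *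
            (Hm h i' * Hm b i') := by
        intro i'
        rw [if_neg hb]
        ring
      simp only [h1]
      rw [← Finset.mul_sum, Hm_orth, if_neg hbh, mul_zero]
  rw [hvan, zero_add, Finset.mul_sum]
  refine Finset.sum_congr rfl (fun i' _ => ?_)
  ring

end P362.Law
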