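import Vale.Agent.Lib.P362.Law.DG

/-! P362 Law/TailA: pointwise facts about `Zv`. -/

open MvPolynomial

namespace P362.Law

variable {m l : ℕ}

private noncomputable def Av (δ : ℝ) (g : GV m l → ℝ) (j : Fin (m + 1)) (i : I l) : ℝ :=
  eval g (Ap δ j i)

private noncomputable def Bv (δ : ℝ) (g : GV m l → ℝ) (j : Fin (m + 1)) (i : I l) : ℝ :=
  eval g (Bp δ j i)

private theorem Zv_eq (δ : ℝ) (c : Fin (m + 1) → ℝ) (g : GV m l → ℝ) (v : VV m l) :
    Zv δ c g v = c v.1 * (Av δ g v.1 v.2 * Bv δ g v.1 v.2) := by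
  simp [Zv, Zp, Av, Bv]

private theorem Av_zero (δ : ℝ) (g : GV m l → ℝ) (i : I l) : Av δ g 0 i = 1 := by
  simp [Av, Ap]

private theorem Av_succ (δ : ℝ) (g : GV m l → ℝ) (r : Fin m) (i : I l) :
    Av δ g r.succ i = δ * Yv g (r, i) := by
  simp [Av, Ap, eval_Yp]

private theorem Bv_last (δ : ℝ) (g : GV m l → ℝ) (i : I l) : Bv δ g (Fin.last m) i = 1 := by
  simp [Bv, Bp]

private theorem Bv_castSucc (δ : ℝ) (g : GV m l → ℝ) (r : Fin m) (i : I l) :
    Bv δ g r.castSucc i = δ * g (r, i) := by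
  simp [Bv, Bp]

private theorem not_bad {δ : ℝ} {g : GV m l → ℝ} (hg : ¬ Bad δ g) (u : GV m l) :
    |δ * g u| ≤ 1 / 2 ∧ |δ * Yv g u| ≤ 1 / 2 := by
  unfold Bad at hg
  push Not at hg
  exact hg u

theorem good_Zv (δ : ℝ) (c : Fin (m + 1) → ℝ) (hc : ∀ j, |c j| ≤ 1) (hm : 1 ≤ m)
    (g : GV m l → ℝ) (hg : ¬ Bad δ g) (v : VV m l) : |Zv δ c g v| ≤ 1 / 2 := by
  obtain ⟨j, i⟩ := v
  rw [Zv_eq, abs_mul, abs_mul]
  have hA : |Av δ g j i| ≤ 1 ∧ (j ≠ 0 → |Av δ g j i| ≤ 1 / 2) := by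
    refine Fin.cases ?_ (fun r => ?_) j
    · rw [Av_zero]
      exact ⟨by simp, fun h => absurd rfl h⟩
    · rw [Av_succ]
      have h := (not_bad hg (r, i)).2
      exact ⟨h.trans (by norm_num), fun _ => h⟩
  have hB : |Bv δ g j i| ≤ 1 ∧ (j ≠ Fin.last m → |Bv δ g j i| ≤ 1 / 2) := by
    refine Fin.lastCases ?_ (fun r => ?_) j
    · rw [Bv_last]
      exact ⟨by simp, fun h => absurd rfl h⟩
    · rw [Bv_castSucc]
      have h := (not_bad hg (r, i)).1
      exact ⟨h.trans (by norm_num), fun _ => h⟩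
  have h2 : |Av δ g j i| * |Bv δ g j i| ≤ 1 / 2 := by
    by_cases h0 : j = 0
    · have h1 : j ≠ Fin.last m := by
        rw [h0]
        intro h
        have := congrArg Fin.val h
        simp at this
        omega
      calc |Av δ g j i| * |Bv δ g j i| ≤ 1 * (1 / 2) :=
            mul_le_mul hA.1 (hB.2 h1) (abs_nonneg _) zero_le_one
        _ = 1 / 2 := by norm_num
    · calc |Av δ g j i| * |Bv δ g j i| ≤ 1 / 2 * 1 :=
            mul_le_mul (hA.2 h0) hB.1 (abs_nonneg _) (by norm_num)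
        _ = 1 / 2 := by norm_num
  calc |c j| * (|Av δ g j i| * |Bv δ g j i|) ≤ 1 * (1 / 2) :=
        mul_le_mul (hc j) h2 (by positivity) zero_le_one
    _ = 1 / 2 := by norm_num

private theorem max_one_le (p : ℕ) (hp : 1 ≤ p) (y : ℝ) : max 1 |y| ≤ 1 + y ^ (2 * p) := by
  have h0 : 0 ≤ y ^ (2 * p) := by
    rw [pow_mul]
    positivity
  refine max_le (by linarith) ?_
  rcases le_total |y| 1 with h | h
  · linarith
  · have h1 : |y| ≤ |y| ^ (2 * p) := le_self_pow₀ h (by omega)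
    rw [← abs_pow, abs_of_nonneg h0] at h1
    linarith

/-- `max 1 |Zv| ≤ max 1 |A| * max 1 |B|`, `max 1 |y| ≤ 1 + y^(2p)` -/
theorem W_le (δ : ℝ) (c : Fin (m + 1) → ℝ) (hc : ∀ j, |c j| ≤ 1) (p : ℕ) (hp : 1 ≤ p)
    (g : GV m l → ℝ) :
    W δ c g ≤ (∏ u : GV m l, (1 + (δ * g u) ^ (2 * p))) *
      ∏ u : GV m l, (1 + (δ * Yv g u) ^ (2 * p)) := by
  have h1 : W δ c g ≤ (∏ v : VV m l, max 1 |Bv δ g v.1 v.2|) *
      ∏ v : VV m l, max 1 |Av δ g v.1 v.2| := by
    unfold W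
    rw [← Finset.prod_mul_distrib]
    refine Finset.prod_le_prod (fun v _ => by positivity) fun v _ => ?_
    have hA : (1 : ℝ) ≤ max 1 |Av δ g v.1 v.2| := le_max_left _ _
    have hB : (1 : ℝ) ≤ max 1 |Bv δ g v.1 v.2| := le_max_left _ _
    refine max_le (one_le_mul_of_one_le_of_one_le hB hA) ?_
    rw [Zv_eq, abs_mul, abs_mul]
    calc |c v.1| * (|Av δ g v.1 v.2| * |Bv δ g v.1 v.2|)
        ≤ 1 * (max 1 |Av δ g v.1 v.2| * max 1 |Bv δ g v.1 v.2|) := by
          refine mul_le_mul (hc _) ?_ (by positivity) zero_le_one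
          exact mul_le_mul (le_max_right _ _) (le_max_right _ _) (abs_nonneg _) (by positivity)
      _ = max 1 |Bv δ g v.1 v.2| * max 1 |Av δ g v.1 v.2| := by ring
  have h2 : ∏ v : VV m l, max 1 |Bv δ g v.1 v.2| = ∏ u : GV m l, max 1 |δ * g u| := by
    rw [Fintype.prod_prod_type, Fintype.prod_prod_type, Fin.prod_univ_castSucc]
    simp only [Bv_last, Bv_castSucc]
    simp
  have h3 : ∏ v : VV m l, max 1 |Av δ g v.1 v.2| = ∏ u : GV m l, max 1 |δ * Yv g u| := by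
    rw [Fintype.prod_prod_type, Fintype.prod_prod_type, Fin.prod_univ_succ]
    simp only [Av_zero, Av_succ]
    simp
  refine h1.trans ?_
  rw [h2, h3]
  refine mul_le_mul ?_ ?_ (by positivity) ?_
  · exact Finset.prod_le_prod (fun u _ => by positivity) fun u _ => max_one_le p hp _
  · exact Finset.prod_le_prod (fun u _ => by positivity) fun u _ => max_one_le p hp _
  · refine Finset.prod_nonneg fun u _ => ?_
    rw [pow_mul]
    positivity

theorem one_le_W (δ : ℝ) (c : Fin (m + 1) → ℝ) (g : GV m l → ℝ) : 1 ≤ W δ c g := by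
  unfold W
  refine Finset.prod_induction (fun v : VV m l => max 1 |Zv δ c g v|) (fun x => 1 ≤ x)
    (fun a b ha hb => one_le_mul_of_one_le_of_one_le ha hb) le_rfl fun v _ => le_max_left _ _

/-- Markov -/
theorem iBad_le (δ : ℝ) (p : ℕ) (g : GV m l → ℝ) :
    iBad δ g ≤ ∑ u : GV m l, ((2 * (δ * g u)) ^ (2 * p) + (2 * (δ * Yv g u)) ^ (2 * p)) := by
  have h0 : ∀ y : ℝ, 0 ≤ y ^ (2 * p) := fun y => by
    rw [pow_mul]
    positivity
  have h1 : ∀ y : ℝ, 1 / 2 < |y| → 1 ≤ (2 * y) ^ (2 * p) := by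
    intro y hy
    have h2 : 1 ≤ |2 * y| := by
      rw [abs_mul, abs_two]
      linarith
    have h3 := one_le_pow₀ h2 (n := 2 * p)
    rwa [← abs_pow, abs_of_nonneg (h0 _)] at h3
  have hs : ∀ u : GV m l, 0 ≤ (2 * (δ * g u)) ^ (2 * p) + (2 * (δ * Yv g u)) ^ (2 * p) :=
    fun u => add_nonneg (h0 _) (h0 _)
  unfold iBad
  split_ifs with h
  · obtain ⟨u, hu⟩ := h
    refine le_trans ?_ (Finset.single_le_sum (fun u _ => hs u) (Finset.mem_univ u))
    rcases hu with hu | hu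
    · linarith [h1 _ hu, h0 (2 * (δ * Yv g u))]
    · linarith [h1 _ hu, h0 (2 * (δ * g u))]
  · exact Finset.sum_nonneg fun u _ => hs u

theorem measurable_iBad (δ : ℝ) : Measurable (iBad (m := m) (l := l) δ) := by
  unfold iBad
  refine Measurable.ite ?_ measurable_const measurable_const
  have e : {g : GV m l → ℝ | Bad δ g} = ⋃ u : GV m l,
      ({g | 1 / 2 < |δ * g u|} ∪ {g | 1 / 2 < |δ * Yv g u|}) := by
    ext g
    simp [Bad]
  rw [e]
  refine MeasurableSet.iUnion fun u => ?_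
  have hY : Continuous (fun g : GV m l → ℝ => Yv g u) := by
    unfold Yv
    fun_prop
  exact (isOpen_lt continuous_const (by fun_prop)).measurableSet.union
    (isOpen_lt continuous_const (continuous_const.mul hY).abs).measurableSet

theorem continuous_Zv (δ : ℝ) (c : Fin (m + 1) → ℝ) (v : VV m l) :
    Continuous (fun g : GV m l → ℝ => Zv δ c g v) :=
  MvPolynomial.continuous_eval _

end P362.Law
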